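import Vale.Agent.P048.Cert0
import Vale.Agent.P048.Cert1
import Vale.Agent.P048.Cert2
import Vale.Agent.P048.Cert3

/-! All normal patterns have certificates. -/

namespace Vale.Agent.P048

theorem all_5_3 : ∃ D : List (List ℕ × Cert), D.all (chkP 5 3) = true ∧
    pats 5 3 = D.map Prod.fst :=
  ⟨dat_5_3_0,
    by simp only [List.all_append, Bool.and_self, ok_5_3_0],
    by decide +kernel⟩

theorem all_5_4 : ∃ D : List (List ℕ × Cert), D.all (chkP 5 4) = true ∧
    pats 5 4 = D.map Prod.fst :=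
  ⟨dat_5_4_0,
    by simp only [List.all_append, Bool.and_self, ok_5_4_0],
    by decide +kernel⟩

theorem all_5_5 : ∃ D : List (List ℕ × Cert), D.all (chkP 5 5) = true ∧
    pats 5 5 = D.map Prod.fst :=
  ⟨dat_5_5_0,
    by simp only [List.all_append, Bool.and_self, ok_5_5_0],
    by decide +kernel⟩

theorem all_6_4 : ∃ D : List (List ℕ × Cert), D.all (chkP 6 4) = true ∧
    pats 6 4 = D.map Prod.fst :=
  ⟨dat_6_4_0,
    by simp only [List.all_append, Bool.and_self, ok_6_4_0],
    by decide +kernel⟩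

theorem all_6_5 : ∃ D : List (List ℕ × Cert), D.all (chkP 6 5) = true ∧
    pats 6 5 = D.map Prod.fst :=
  ⟨dat_6_5_0,
    by simp only [List.all_append, Bool.and_self, ok_6_5_0],
    by decide +kernel⟩

theorem all_6_6 : ∃ D : List (List ℕ × Cert), D.all (chkP 6 6) = true ∧
    pats 6 6 = D.map Prod.fst :=
  ⟨dat_6_6_0,
    by simp only [List.all_append, Bool.and_self, ok_6_6_0],
    by decide +kernel⟩

theorem all_7_4 : ∃ D : List (List ℕ × Cert), D.all (chkP 7 4) = true ∧
    pats 7 4 = D.map Prod.fst :=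
  ⟨dat_7_4_0,
    by simp only [List.all_append, Bool.and_self, ok_7_4_0],
    by decide +kernel⟩

theorem all_7_5 : ∃ D : List (List ℕ × Cert), D.all (chkP 7 5) = true ∧
    pats 7 5 = D.map Prod.fst :=
  ⟨dat_7_5_0,
    by simp only [List.all_append, Bool.and_self, ok_7_5_0],
    by decide +kernel⟩

theorem all_7_6 : ∃ D : List (List ℕ × Cert), D.all (chkP 7 6) = true ∧
    pats 7 6 = D.map Prod.fst :=
  ⟨dat_7_6_0,
    by simp only [List.all_append, Bool.and_self, ok_7_6_0],
    by decide +kernel⟩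

theorem all_7_7 : ∃ D : List (List ℕ × Cert), D.all (chkP 7 7) = true ∧
    pats 7 7 = D.map Prod.fst :=
  ⟨dat_7_7_0,
    by simp only [List.all_append, Bool.and_self, ok_7_7_0],
    by decide +kernel⟩

theorem all_8_5 : ∃ D : List (List ℕ × Cert), D.all (chkP 8 5) = true ∧
    pats 8 5 = D.map Prod.fst :=
  ⟨dat_8_5_0,
    by simp only [List.all_append, Bool.and_self, ok_8_5_0],
    by decide +kernel⟩

theorem all_8_6 : ∃ D : List (List ℕ × Cert), D.all (chkP 8 6) = true ∧
    pats 8 6 = D.map Prod.fst :=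
  ⟨dat_8_6_0,
    by simp only [List.all_append, Bool.and_self, ok_8_6_0],
    by decide +kernel⟩

theorem all_8_7 : ∃ D : List (List ℕ × Cert), D.all (chkP 8 7) = true ∧
    pats 8 7 = D.map Prod.fst :=
  ⟨dat_8_7_0,
    by simp only [List.all_append, Bool.and_self, ok_8_7_0],
    by decide +kernel⟩

theorem all_8_8 : ∃ D : List (List ℕ × Cert), D.all (chkP 8 8) = true ∧
    pats 8 8 = D.map Prod.fst :=
  ⟨dat_8_8_0,
    by simp only [List.all_append, Bool.and_self, ok_8_8_0],
    by decide +kernel⟩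

theorem all_9_5 : ∃ D : List (List ℕ × Cert), D.all (chkP 9 5) = true ∧
    pats 9 5 = D.map Prod.fst :=
  ⟨dat_9_5_0,
    by simp only [List.all_append, Bool.and_self, ok_9_5_0],
    by decide +kernel⟩

theorem all_9_6 : ∃ D : List (List ℕ × Cert), D.all (chkP 9 6) = true ∧
    pats 9 6 = D.map Prod.fst :=
  ⟨dat_9_6_0,
    by simp only [List.all_append, Bool.and_self, ok_9_6_0],
    by decide +kernel⟩

theorem all_9_7 : ∃ D : List (List ℕ × Cert), D.all (chkP 9 7) = true ∧
    pats 9 7 = D.map Prod.fst :=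
  ⟨dat_9_7_0,
    by simp only [List.all_append, Bool.and_self, ok_9_7_0],
    by decide +kernel⟩

theorem all_9_8 : ∃ D : List (List ℕ × Cert), D.all (chkP 9 8) = true ∧
    pats 9 8 = D.map Prod.fst :=
  ⟨dat_9_8_0,
    by simp only [List.all_append, Bool.and_self, ok_9_8_0],
    by decide +kernel⟩

theorem all_10_6 : ∃ D : List (List ℕ × Cert), D.all (chkP 10 6) = true ∧
    pats 10 6 = D.map Prod.fst :=
  ⟨dat_10_6_0 ++ dat_10_6_1,
    by simp only [List.all_append, Bool.and_self, ok_10_6_0, ok_10_6_1],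
    by decide +kernel⟩

theorem all_10_7 : ∃ D : List (List ℕ × Cert), D.all (chkP 10 7) = true ∧
    pats 10 7 = D.map Prod.fst :=
  ⟨dat_10_7_0,
    by simp only [List.all_append, Bool.and_self, ok_10_7_0],
    by decide +kernel⟩

theorem all_10_8 : ∃ D : List (List ℕ × Cert), D.all (chkP 10 8) = true ∧
    pats 10 8 = D.map Prod.fst :=
  ⟨dat_10_8_0,
    by simp only [List.all_append, Bool.and_self, ok_10_8_0],
    by decide +kernel⟩

theorem all_11_6 : ∃ D : List (List ℕ × Cert), D.all (chkP 11 6) = true ∧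
    pats 11 6 = D.map Prod.fst :=
  ⟨dat_11_6_0 ++ dat_11_6_1 ++ dat_11_6_2,
    by simp only [List.all_append, Bool.and_self, ok_11_6_0, ok_11_6_1, ok_11_6_2],
    by decide +kernel⟩

theorem all_11_7 : ∃ D : List (List ℕ × Cert), D.all (chkP 11 7) = true ∧
    pats 11 7 = D.map Prod.fst :=
  ⟨dat_11_7_0 ++ dat_11_7_1,
    by simp only [List.all_append, Bool.and_self, ok_11_7_0, ok_11_7_1],
    by decide +kernel⟩

theorem all_11_8 : ∃ D : List (List ℕ × Cert), D.all (chkP 11 8) = true ∧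
    pats 11 8 = D.map Prod.fst :=
  ⟨dat_11_8_0,
    by simp only [List.all_append, Bool.and_self, ok_11_8_0],
    by decide +kernel⟩

theorem all_12_7 : ∃ D : List (List ℕ × Cert), D.all (chkP 12 7) = true ∧
    pats 12 7 = D.map Prod.fst :=
  ⟨dat_12_7_0 ++ dat_12_7_1 ++ dat_12_7_2 ++ dat_12_7_3,
    by simp only [List.all_append, Bool.and_self, ok_12_7_0, ok_12_7_1, ok_12_7_2, ok_12_7_3],
    by decide +kernel⟩

theorem all_12_8 : ∃ D : List (List ℕ × Cert), D.all (chkP 12 8) = true ∧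
    pats 12 8 = D.map Prod.fst :=
  ⟨dat_12_8_0 ++ dat_12_8_1,
    by simp only [List.all_append, Bool.and_self, ok_12_8_0, ok_12_8_1],
    by decide +kernel⟩

end Vale.Agent.P048
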