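import Vale.Agent.P048.TinyA

/-! The search trees. -/

namespace Vale.Agent.P048.TinyC

def t31 : Tr :=
  (.ext [0] (.br 0 1 (.clq [0, 1]) .done))

theorem c31 : chk 3 1 1 t31 1 0 0 [] 0 = true := by decide +kernel

def t41 : Tr :=
  (.ext [0] (.br 0 1 (.clq [0, 1]) .done))

theorem c41 : chk 4 1 1 t41 1 0 0 [] 0 = true := by decide +kernel

def t51 : Tr :=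
  (.ext [0] (.br 0 1 (.clq [0, 1]) .done))

theorem c51 : chk 5 1 1 t51 1 0 0 [] 0 = true := by decide +kernel

def t32 : Tr :=
  (.ext [0] (.br 0 2 (.br 1 2 (.clq [1, 2, 0]) (.ext [0] (.br 0 3 (.br 1 3 (.clq [1, 3, 0])
  (.br 2 3 (.clq [2, 3, 0]) (.ext [1] (.br 1 4 (.br 0 4 (.clq [0, 4, 1])
  (.br 2 4 (.cyc 2 [0, 1, 4]) (.br 3 4 (.cyc 3 [0, 1, 4]) (.ext [1] (.br 1 5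
  (.br 0 5 (.clq [0, 5, 1]) (.br 2 5 (.cyc 2 [0, 1, 5]) (.br 3 5 (.cyc 3 [0, 1, 5])
  (.br 4 5 (.clq [4, 5, 1]) (.ind [4, 5, 2, 3]))))) .done))))) .done)))) .done))) .done))

theorem c32 : chk 3 2 2 t32 2 0 0 [] 0 = true := by decide +kernel

def t33x0 : Tr :=
  (.br 6 7 (.br 6 8 (.cyc 6 [7, 5, 8]) (.br 7 8 (.cyc 7 [6, 4, 8]) (.ext [8] (.br 8 9
  (.br 1 9 (.cyc 1 [4, 8, 9]) (.br 2 9 (.cyc 2 [5, 8, 9]) (.br 6 9 (.cyc 6 [4, 8, 9])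
  (.br 7 9 (.cyc 7 [5, 8, 9]) (.br 4 9
  (.br 5 9 (.cyc 5 [8, 4, 9]) (.ind [5, 9, 1, 6])) (.ind [4, 9, 2, 7])))))) .done)))) (.br 6 8
  (.br 7 8 (.cyc 7 [3, 6, 8]) (.ext [7] (.br 7 9 (.br 0 9 (.cyc 0 [3, 7, 9])
  (.br 2 9 (.cyc 2 [5, 7, 9]) (.br 6 9 (.cyc 6 [3, 7, 9]) (.br 8 9 (.cyc 8 [5, 7, 9]) (.br 3 9
  (.br 4 9 (.cyc 4 [6, 3, 9])
  (.br 5 9 (.cyc 5 [7, 3, 9]) (.ind [5, 9, 0, 4]))) (.ind [3, 9, 2, 8])))))) .done)))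
  (.br 7 8 (.ext [6] (.br 6 9 (.br 0 9 (.cyc 0 [3, 6, 9]) (.br 1 9 (.cyc 1 [4, 6, 9])
  (.br 7 9 (.cyc 7 [3, 6, 9]) (.br 8 9 (.cyc 8 [4, 6, 9]) (.br 3 9
  (.br 4 9 (.cyc 4 [6, 3, 9]) (.ind [4, 9, 0, 7])) (.ind [3, 9, 1, 8])))))) .done)) (.ind [7, 8, 0, 6]))))

def t33x1 : Tr :=
  (.br 6 7 (.br 6 8 (.cyc 6 [7, 4, 8]) (.br 7 8 (.cyc 7 [6, 5, 8]) (.ext [8] (.br 8 9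
  (.br 1 9 (.cyc 1 [4, 8, 9]) (.br 2 9 (.cyc 2 [5, 8, 9]) (.br 6 9 (.cyc 6 [5, 8, 9])
  (.br 7 9 (.cyc 7 [4, 8, 9]) (.br 4 9
  (.br 5 9 (.cyc 5 [8, 4, 9]) (.ind [5, 9, 1, 7])) (.ind [4, 9, 2, 6])))))) .done)))) (.br 6 8
  (.br 7 8 (.cyc 7 [3, 6, 8]) (.ext [7] (.br 7 9 (.br 0 9 (.cyc 0 [3, 7, 9])
  (.br 1 9 (.cyc 1 [4, 7, 9]) (.br 6 9 (.cyc 6 [3, 7, 9]) (.br 8 9 (.cyc 8 [4, 7, 9]) (.br 3 9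
  (.br 4 9 (.cyc 4 [7, 3, 9]) (.ind [4, 9, 0, 6])) (.ind [3, 9, 1, 8])))))) .done)))
  (.br 7 8 (.ext [6] (.br 6 9 (.br 0 9 (.cyc 0 [3, 6, 9]) (.br 2 9 (.cyc 2 [5, 6, 9])
  (.br 7 9 (.cyc 7 [3, 6, 9]) (.br 8 9 (.cyc 8 [5, 6, 9]) (.br 3 9 (.br 4 9 (.cyc 4 [7, 3, 9])
  (.br 5 9 (.cyc 5 [6, 3, 9]) (.ind [5, 9, 0, 4]))) (.ind [3, 9, 2, 8])))))) .done)) (.ind [7, 8, 0, 6]))))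

def t33x2 : Tr :=
  (.br 4 6 (.br 4 7 (.cyc 4 [6, 3, 7]) (.br 5 7 (.br 5 6 (.cyc 5 [7, 3, 6]) (.ext [4] (.br 4 8
  (.br 0 8 (.cyc 0 [1, 4, 8]) (.br 2 8 (.cyc 2 [1, 4, 8]) (.br 3 8 (.cyc 3 [6, 4, 8]) (.br 1 8
  (.br 5 8 (.cyc 5 [2, 1, 8]) (.br 6 8 (.cyc 6 [4, 1, 8]) (.ind [6, 8, 0, 5])))
  (.br 5 8 t33x0 (.ind [5, 8, 1, 3])))))) .done))) (.ind [5, 7, 0, 4]))) (.br 5 6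
  (.br 5 7 (.cyc 5 [6, 3, 7]) (.br 4 7 (.ext [4] (.br 4 8 (.br 0 8 (.cyc 0 [1, 4, 8])
  (.br 2 8 (.cyc 2 [1, 4, 8]) (.br 3 8 (.cyc 3 [7, 4, 8]) (.br 1 8 (.br 5 8 (.cyc 5 [2, 1, 8])
  (.br 7 8 (.cyc 7 [4, 1, 8]) (.ind [7, 8, 0, 5])))
  (.br 5 8 t33x1 (.ind [5, 8, 1, 3])))))) .done)) (.ind [4, 7, 0, 5]))) (.ind [5, 6, 0, 4])))

def t33x3 : Tr :=
  (.br 0 6 (.br 0 7 (.cyc 0 [6, 3, 7]) (.br 4 6 (.cyc 4 [1, 0, 6]) (.br 5 6 (.cyc 5 [2, 0, 6])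
  (.br 6 7 (.cyc 6 [0, 3, 7]) (.br 4 7 (.br 5 7 (.ext [4] (.br 4 8 (.br 0 8 (.cyc 0 [1, 4, 8])
  (.br 2 8 (.cyc 2 [1, 4, 8]) (.br 3 8 (.cyc 3 [7, 4, 8]) (.br 5 8 (.cyc 5 [7, 4, 8]) (.br 1 8
  (.br 6 8 (.cyc 6 [0, 1, 8])
  (.br 7 8 (.cyc 7 [4, 1, 8]) (.ind [7, 8, 2, 6]))) (.ind [1, 8, 3, 5])))))) .done)) (.ind [5, 7, 1, 6])) (.ind [4, 7, 2, 6]))))))
  (.br 0 7 (.br 4 7 (.cyc 4 [1, 0, 7]) (.br 5 7 (.cyc 5 [2, 0, 7]) (.br 6 7 (.cyc 6 [3, 0, 7])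
  (.br 4 6 (.br 5 6 (.ext [4] (.br 4 8 (.br 0 8 (.cyc 0 [1, 4, 8]) (.br 2 8 (.cyc 2 [1, 4, 8])
  (.br 3 8 (.cyc 3 [6, 4, 8]) (.br 5 8 (.cyc 5 [6, 4, 8]) (.br 1 8 (.br 6 8 (.cyc 6 [4, 1, 8])
  (.br 7 8 (.cyc 7 [0, 1, 8]) (.ind [7, 8, 2, 6]))) (.ind [1, 8, 3, 5])))))) .done)) (.ind [5, 6, 1, 7])) (.ind [4, 6, 2, 7]))))) t33x2))

def t33x4 : Tr :=
  (.br 0 3 (.br 1 3 (.cyc 1 [2, 0, 3]) (.br 2 3 (.cyc 2 [1, 0, 3]) (.ext [1] (.br 1 4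
  (.br 0 4 (.cyc 0 [2, 1, 4]) (.br 2 4 (.cyc 2 [0, 1, 4]) (.br 3 4 (.cyc 3 [0, 1, 4]) (.ext [2]
  (.br 2 5 (.br 0 5 (.cyc 0 [1, 2, 5]) (.br 1 5 (.cyc 1 [0, 2, 5]) (.br 3 5 (.cyc 3 [0, 2, 5])
  (.br 4 5 (.cyc 4 [1, 2, 5]) (.ext [3] (.br 3 6 (.br 1 6 (.cyc 1 [0, 3, 6])
  (.br 2 6 (.cyc 2 [0, 3, 6]) (.ext [3] (.br 3 7 (.br 1 7 (.cyc 1 [0, 3, 7])
  (.br 2 7 (.cyc 2 [0, 3, 7]) t33x3)) .done)))) .done)))))) .done))))) .done)))) .done)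

def t33 : Tr :=
  (.ext [0] t33x4)

theorem c33 : chk 3 3 3 t33 3 0 0 [] 0 = true := by decide +kernel

def t42x0 : Tr :=
  (.br 6 4 (.br 4 7 (.ext [0, 5] (.br 0 8 (.br 1 8 (.cyc 1 [5, 2, 0, 8])
  (.br 2 8 (.cyc 2 [5, 1, 0, 8]) (.br 3 8 (.cyc 3 [5, 1, 0, 8])
  (.br 4 8 (.cyc 4 [5, 1, 0, 8]) (.ind [4, 8, 1, 2, 3]))))) (.br 5 8
  (.br 1 8 (.cyc 1 [0, 2, 5, 8]) (.br 2 8 (.cyc 2 [0, 1, 5, 8]) (.br 3 8 (.cyc 3 [0, 1, 5, 8])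
  (.br 4 8 (.cyc 4 [0, 1, 5, 8]) (.ind [4, 8, 1, 2, 3]))))) .done))) (.ext [4] (.br 4 8
  (.br 0 8 (.cyc 0 [1, 5, 4, 8]) (.br 5 8 (.cyc 5 [1, 0, 4, 8]) (.br 6 8 (.cyc 6 [1, 0, 4, 8])
  (.br 7 8 (.cyc 7 [1, 0, 4, 8]) (.ind [7, 8, 0, 5, 6]))))) .done))) (.ext [4] (.br 4 8
  (.br 0 8 (.cyc 0 [1, 5, 4, 8]) (.br 5 8 (.cyc 5 [1, 0, 4, 8]) (.br 6 8 (.cyc 6 [1, 0, 4, 8])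
  (.br 7 8 (.cyc 7 [1, 0, 4, 8]) (.ind [7, 8, 0, 5, 6]))))) .done)))

def t42x1 : Tr :=
  (.br 5 4 (.br 3 6 (.br 3 7 t42x0 (.ext [3] (.br 3 8 (.br 0 8 (.cyc 0 [1, 5, 3, 8])
  (.br 5 8 (.cyc 5 [1, 0, 3, 8]) (.br 6 8 (.cyc 6 [1, 0, 3, 8])
  (.br 7 8 (.cyc 7 [1, 0, 3, 8]) (.ind [7, 8, 0, 5, 6]))))) .done))) (.ext [3] (.br 3 8
  (.br 0 8 (.cyc 0 [1, 5, 3, 8]) (.br 5 8 (.cyc 5 [1, 0, 3, 8]) (.br 6 8 (.cyc 6 [1, 0, 3, 8])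
  (.br 7 8 (.cyc 7 [1, 0, 3, 8]) (.ind [7, 8, 0, 5, 6]))))) .done))) (.ext [4] (.br 4 8
  (.br 0 8 (.clq [0, 8, 4]) (.br 5 8 (.cyc 5 [1, 0, 4, 8]) (.br 6 8 (.cyc 6 [1, 0, 4, 8])
  (.br 7 8 (.cyc 7 [1, 0, 4, 8]) (.ind [7, 8, 0, 5, 6]))))) .done)))

def t42x2 : Tr :=
  (.br 2 6 (.br 2 7 (.br 5 3 t42x1 (.ext [3] (.br 3 8 (.br 0 8 (.clq [0, 8, 3])
  (.br 5 8 (.cyc 5 [1, 0, 3, 8]) (.br 6 8 (.cyc 6 [1, 0, 3, 8])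
  (.br 7 8 (.cyc 7 [1, 0, 3, 8]) (.ind [7, 8, 0, 5, 6]))))) .done))) (.ext [2] (.br 2 8
  (.br 0 8 (.cyc 0 [1, 5, 2, 8]) (.br 5 8 (.cyc 5 [1, 0, 2, 8]) (.br 6 8 (.cyc 6 [1, 0, 2, 8])
  (.br 7 8 (.cyc 7 [1, 0, 2, 8]) (.ind [7, 8, 0, 5, 6]))))) .done))) (.ext [2] (.br 2 8
  (.br 0 8 (.cyc 0 [1, 5, 2, 8]) (.br 5 8 (.cyc 5 [1, 0, 2, 8]) (.br 6 8 (.cyc 6 [1, 0, 2, 8])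
  (.br 7 8 (.cyc 7 [1, 0, 2, 8]) (.ind [7, 8, 0, 5, 6]))))) .done)))

def t42x3 : Tr :=
  (.br 1 4 (.clq [1, 4, 0]) (.br 2 4 (.clq [2, 4, 0]) (.br 3 4 (.clq [3, 4, 0]) (.ext [1]
  (.br 1 5 (.br 0 5 (.clq [0, 5, 1]) (.ext [1] (.br 1 6 (.br 0 6 (.clq [0, 6, 1])
  (.br 5 6 (.clq [5, 6, 1]) (.ext [1] (.br 1 7 (.br 0 7 (.clq [0, 7, 1])
  (.br 5 7 (.clq [5, 7, 1]) (.br 6 7 (.clq [6, 7, 1]) (.br 2 5 t42x2 (.ext [2] (.br 2 8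
  (.br 0 8 (.clq [0, 8, 2]) (.br 5 8 (.cyc 5 [1, 0, 2, 8]) (.br 6 8 (.cyc 6 [1, 0, 2, 8])
  (.br 7 8 (.cyc 7 [1, 0, 2, 8]) (.ind [7, 8, 0, 5, 6]))))) .done)))))) .done)))) .done))) .done)))))

def t42 : Tr :=
  (.ext [0] (.br 0 2 (.br 1 2 (.clq [1, 2, 0]) (.ext [0] (.br 0 3 (.br 1 3 (.clq [1, 3, 0])
  (.br 2 3 (.clq [2, 3, 0]) (.ext [0] (.br 0 4 t42x3 .done)))) .done))) .done))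

theorem c42 : chk 4 2 2 t42 2 0 0 [] 0 = true := by decide +kernel

def t43x0 : Tr :=
  (.br 2 12 (.br 6 11 (.cyc 6 [2, 12, 5, 11]) (.br 6 12 (.clq [6, 12, 2, 5])
  (.br 7 12 (.cyc 7 [3, 0, 2, 12]) (.br 8 12 (.cyc 8 [3, 0, 2, 12])
  (.br 9 12 (.cyc 9 [4, 0, 2, 12]) (.ind [9, 12, 0, 6, 7])))))) (.br 11 12
  (.br 6 11 (.cyc 6 [2, 5, 12, 11]) (.br 6 12 (.cyc 6 [2, 5, 11, 12]) (.ext [6] (.br 6 13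
  (.br 0 13 (.cyc 0 [1, 2, 6, 13]) (.br 1 13 (.cyc 1 [0, 2, 6, 13])
  (.br 3 13 (.cyc 3 [0, 2, 6, 13]) (.br 4 13 (.cyc 4 [0, 2, 6, 13])
  (.br 11 13 (.cyc 11 [5, 2, 6, 13]) (.br 12 13 (.cyc 12 [5, 2, 6, 13]) (.br 2 13
  (.br 5 13 (.clq [5, 13, 2, 6]) (.br 7 13 (.cyc 7 [3, 0, 2, 13])
  (.br 8 13 (.cyc 8 [3, 0, 2, 13])
  (.br 9 13 (.cyc 9 [4, 0, 2, 13]) (.ind [9, 13, 0, 5, 7]))))) (.ind [2, 13, 3, 4, 11])))))))) .done)))) (.ind [11, 12, 2, 3, 4])))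

def t43x1 : Tr :=
  (.br 1 4 (.br 0 9 (.cyc 0 [1, 4, 10, 9]) (.br 0 10 (.cyc 0 [1, 4, 9, 10]) (.br 2 11
  (.br 6 11 (.clq [6, 11, 2, 5]) (.br 6 12 (.cyc 6 [2, 11, 5, 12])
  (.br 7 11 (.cyc 7 [3, 0, 2, 11]) (.br 8 11 (.cyc 8 [3, 0, 2, 11])
  (.br 9 11 (.cyc 9 [4, 0, 2, 11]) (.ind [9, 11, 0, 6, 7])))))) t43x0))) (.ext [1] (.br 1 13
  (.br 2 13 (.cyc 2 [0, 3, 1, 13]) (.br 3 13 (.cyc 3 [0, 2, 1, 13])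
  (.br 4 13 (.cyc 4 [0, 2, 1, 13]) (.br 5 13 (.cyc 5 [2, 0, 1, 13])
  (.br 6 13 (.cyc 6 [2, 0, 1, 13]) (.br 7 13 (.cyc 7 [3, 0, 1, 13])
  (.br 8 13 (.cyc 8 [3, 0, 1, 13]) (.br 9 13 (.cyc 9 [4, 0, 1, 13])
  (.br 10 13 (.cyc 10 [4, 0, 1, 13]) (.br 11 13 (.cyc 11 [5, 2, 1, 13])
  (.br 12 13 (.cyc 12 [5, 2, 1, 13]) (.br 2 11 (.br 2 12
  (.br 6 11 (.cyc 6 [2, 12, 5, 11]) (.ind [6, 11, 3, 4, 13])) (.ind [2, 12, 3, 4, 13])) (.ind [2, 11, 3, 4, 13]))))))))))))) .done)))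

def t43x2 : Tr :=
  (.br 4 10 (.br 1 10 (.cyc 1 [2, 0, 4, 10]) (.br 2 10 (.cyc 2 [1, 0, 4, 10])
  (.br 3 10 (.cyc 3 [1, 0, 4, 10]) (.br 5 10 (.cyc 5 [2, 0, 4, 10])
  (.br 6 10 (.cyc 6 [2, 0, 4, 10]) (.br 7 10 (.cyc 7 [3, 0, 4, 10])
  (.br 8 10 (.cyc 8 [3, 0, 4, 10]) (.br 9 10 (.ext [5] (.br 5 11 (.br 0 11 (.cyc 0 [1, 2, 5, 11])
  (.br 1 11 (.cyc 1 [0, 2, 5, 11]) (.br 3 11 (.cyc 3 [0, 2, 5, 11])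
  (.br 4 11 (.cyc 4 [0, 2, 5, 11]) (.ext [5] (.br 5 12 (.br 0 12 (.cyc 0 [1, 2, 5, 12])
  (.br 1 12 (.cyc 1 [0, 2, 5, 12]) (.br 3 12 (.cyc 3 [0, 2, 5, 12])
  (.br 4 12 (.cyc 4 [0, 2, 5, 12]) t43x1)))) .done)))))) .done)) (.ind [9, 10, 1, 5, 7]))))))))) .done)

def t43x3 : Tr :=
  (.br 6 7 (.cyc 6 [2, 0, 3, 7]) (.ext [3] (.br 3 8 (.br 0 8 (.cyc 0 [2, 1, 3, 8])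
  (.br 1 8 (.cyc 1 [2, 0, 3, 8]) (.br 2 8 (.cyc 2 [0, 1, 3, 8]) (.br 4 8 (.cyc 4 [0, 1, 3, 8])
  (.br 5 8 (.cyc 5 [2, 0, 3, 8]) (.br 6 8 (.cyc 6 [2, 0, 3, 8]) (.ext [4] (.br 4 9
  (.br 1 9 (.cyc 1 [2, 0, 4, 9]) (.br 2 9 (.cyc 2 [1, 0, 4, 9]) (.br 3 9 (.cyc 3 [1, 0, 4, 9])
  (.br 5 9 (.cyc 5 [2, 0, 4, 9]) (.br 6 9 (.cyc 6 [2, 0, 4, 9]) (.br 7 9 (.cyc 7 [3, 0, 4, 9])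
  (.br 8 9 (.cyc 8 [3, 0, 4, 9]) (.br 5 6
  (.br 7 8 (.ext [4] t43x2) (.ind [7, 8, 1, 5, 9])) (.ind [5, 6, 1, 7, 9]))))))))) .done)))))))) .done)))

def t43x4 : Tr :=
  (.br 2 4 (.cyc 2 [1, 3, 0, 4]) (.br 3 4 (.cyc 3 [1, 2, 0, 4]) (.ext [2] (.br 2 5
  (.br 0 5 (.cyc 0 [3, 1, 2, 5]) (.br 1 5 (.cyc 1 [3, 0, 2, 5]) (.br 3 5 (.cyc 3 [0, 1, 2, 5])
  (.br 4 5 (.cyc 4 [0, 1, 2, 5]) (.ext [2] (.br 2 6 (.br 0 6 (.cyc 0 [3, 1, 2, 6])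
  (.br 1 6 (.cyc 1 [3, 0, 2, 6]) (.br 3 6 (.cyc 3 [0, 1, 2, 6])
  (.br 4 6 (.cyc 4 [0, 1, 2, 6]) (.ext [3] (.br 3 7 (.br 0 7 (.cyc 0 [2, 1, 3, 7])
  (.br 1 7 (.cyc 1 [2, 0, 3, 7]) (.br 2 7 (.cyc 2 [0, 1, 3, 7]) (.br 4 7 (.cyc 4 [0, 1, 3, 7])
  (.br 5 7 (.cyc 5 [2, 0, 3, 7]) t43x3))))) .done)))))) .done)))))) .done))))

def t43x5 : Tr :=
  (.br 4 11 (.cyc 4 [0, 3, 6, 11]) (.br 1 4 (.br 3 4 (.cyc 3 [0, 2, 1, 4]) (.br 5 8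
  (.br 6 8 (.cyc 6 [3, 0, 5, 8]) (.br 8 9 (.cyc 8 [5, 0, 2, 9]) (.br 8 10 (.cyc 8 [5, 0, 2, 10])
  (.br 8 11 (.cyc 8 [5, 0, 3, 11]) (.ext [3] (.br 3 12 (.br 1 12 (.cyc 1 [2, 0, 3, 12])
  (.br 2 12 (.cyc 2 [1, 0, 3, 12]) (.br 4 12 (.cyc 4 [1, 0, 3, 12])
  (.br 5 12 (.cyc 5 [1, 0, 3, 12]) (.br 6 12 (.br 7 12 (.cyc 7 [5, 0, 3, 12])
  (.br 8 12 (.cyc 8 [5, 0, 3, 12]) (.br 9 12 (.cyc 9 [2, 0, 3, 12])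
  (.br 10 12 (.cyc 10 [2, 0, 3, 12])
  (.br 11 12 (.clq [11, 12, 3, 6]) (.ind [11, 12, 1, 7, 9])))))) (.ind [6, 12, 2, 4, 5])))))) .done)))))) (.ind [5, 8, 2, 3, 4]))) (.ind [1, 4, 6, 7, 9])))

def t43x6 : Tr :=
  (.br 7 9 (.cyc 7 [5, 0, 2, 9]) (.ext [2] (.br 2 10 (.br 0 10 (.cyc 0 [5, 1, 2, 10])
  (.br 1 10 (.cyc 1 [5, 0, 2, 10]) (.br 3 10 (.cyc 3 [0, 1, 2, 10])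
  (.br 4 10 (.cyc 4 [0, 1, 2, 10]) (.br 5 10 (.cyc 5 [0, 1, 2, 10])
  (.br 6 10 (.cyc 6 [3, 0, 2, 10]) (.br 7 10 (.cyc 7 [5, 0, 2, 10]) (.br 9 10 (.ext [3] (.br 3 11
  (.br 1 11 (.cyc 1 [2, 0, 3, 11]) (.br 2 11 (.cyc 2 [1, 0, 3, 11])
  (.br 5 11 (.cyc 5 [1, 0, 3, 11]) (.br 7 11 (.cyc 7 [5, 0, 3, 11])
  (.br 9 11 (.cyc 9 [2, 0, 3, 11]) (.br 10 11 (.cyc 10 [2, 0, 3, 11]) (.br 6 11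
  (.br 4 6 (.cyc 4 [0, 3, 11, 6]) t43x5) (.ind [6, 11, 1, 7, 9])))))))) .done)) (.ind [9, 10, 1, 3, 7]))))))))) .done)))

def t43x7 : Tr :=
  (.br 10 11 (.cyc 10 [2, 0, 3, 11]) (.ext [10] (.br 10 12 (.br 0 12 (.cyc 0 [1, 2, 10, 12])
  (.br 1 12 (.cyc 1 [0, 2, 10, 12]) (.br 3 12 (.cyc 3 [0, 2, 10, 12])
  (.br 4 12 (.cyc 4 [0, 2, 10, 12]) (.br 5 12 (.cyc 5 [1, 2, 10, 12])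
  (.br 6 12 (.cyc 6 [0, 2, 10, 12]) (.br 7 12 (.cyc 7 [1, 2, 10, 12]) (.br 3 4
  (.br 1 4 (.cyc 1 [0, 6, 3, 4]) (.br 2 4 (.cyc 2 [0, 6, 3, 4]) (.br 4 6 (.clq [4, 6, 0, 3])
  (.br 5 8 (.br 5 9
  (.br 6 11 (.cyc 6 [0, 4, 3, 11]) (.ind [6, 11, 2, 4, 5])) (.ind [5, 9, 2, 4, 6])) (.ind [5, 8, 2, 4, 6])))))
  (.br 5 8 (.br 5 9
  (.br 8 9 (.cyc 8 [5, 1, 7, 9]) (.ind [8, 9, 3, 4, 10])) (.ind [5, 9, 3, 4, 10])) (.ind [5, 8, 3, 4, 10])))))))))) .done)))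

def t43x8 : Tr :=
  (.br 3 9 (.cyc 3 [0, 1, 7, 9]) (.br 4 8 (.cyc 4 [0, 1, 7, 8]) (.br 4 9 (.cyc 4 [0, 1, 7, 9])
  (.br 6 8 (.cyc 6 [0, 1, 7, 8]) (.br 6 9 (.cyc 6 [0, 1, 7, 9]) (.ext [2] (.br 2 10
  (.br 3 10 (.cyc 3 [0, 1, 2, 10]) (.br 4 10 (.cyc 4 [0, 1, 2, 10])
  (.br 5 10 (.cyc 5 [1, 0, 2, 10]) (.br 6 10 (.cyc 6 [0, 1, 2, 10])
  (.br 7 10 (.cyc 7 [1, 0, 2, 10]) (.br 8 10 (.cyc 8 [7, 1, 2, 10])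
  (.br 9 10 (.cyc 9 [7, 1, 2, 10]) (.ext [3] (.br 3 11 (.br 1 11 (.cyc 1 [0, 6, 3, 11])
  (.br 2 11 (.cyc 2 [0, 6, 3, 11]) (.br 4 11 (.cyc 4 [0, 6, 3, 11])
  (.br 5 11 (.cyc 5 [1, 0, 3, 11])
  (.br 7 11 (.cyc 7 [1, 0, 3, 11]) t43x7))))) .done))))))))) .done)))))))

def t43x9 : Tr :=
  (.br 2 13 (.cyc 2 [0, 1, 5, 13]) (.br 3 13 (.cyc 3 [0, 1, 5, 13])
  (.br 4 13 (.cyc 4 [0, 1, 5, 13]) (.br 6 13 (.cyc 6 [0, 1, 5, 13])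
  (.br 9 13 (.cyc 9 [7, 8, 5, 13]) (.br 10 13 (.cyc 10 [7, 8, 5, 13])
  (.br 11 13 (.cyc 11 [2, 1, 5, 13]) (.br 12 13 (.cyc 12 [2, 1, 5, 13]) (.br 7 13
  (.br 1 8 (.cyc 1 [5, 13, 7, 8]) (.br 1 13 (.cyc 1 [5, 8, 7, 13])
  (.br 8 9 (.cyc 8 [5, 13, 7, 9]) (.br 8 10 (.cyc 8 [5, 13, 7, 10])
  (.br 8 13 (.clq [8, 13, 5, 7]) (.br 9 10 (.br 9 11 (.br 9 12
  (.br 10 11 (.cyc 10 [9, 12, 2, 11]) (.ind [10, 11, 0, 8, 13])) (.ind [9, 12, 0, 8, 13])) (.ind [9, 11, 0, 8, 13])) (.ind [9, 10, 0, 8, 13])))))))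
  (.br 3 4
  (.br 4 6 (.clq [4, 6, 0, 3]) (.ind [4, 6, 2, 7, 13])) (.ind [3, 4, 2, 7, 13])))))))))))

def t43x10 : Tr :=
  (.br 5 9 (.br 1 8 (.cyc 1 [5, 9, 7, 8]) (.br 3 9 (.cyc 3 [0, 1, 5, 9])
  (.br 4 9 (.cyc 4 [0, 1, 5, 9]) (.br 6 9 (.cyc 6 [0, 1, 5, 9]) (.br 8 9 (.clq [8, 9, 5, 7])
  (.br 8 10 (.cyc 8 [5, 9, 7, 10]) (.br 9 10 (.cyc 9 [5, 8, 7, 10])
  (.br 9 11 (.cyc 9 [5, 1, 2, 11]) (.br 9 12 (.cyc 9 [5, 1, 2, 12]) (.br 10 11 (.br 10 12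
  (.br 11 12
  (.br 1 11 (.cyc 1 [0, 2, 12, 11]) (.ind [1, 11, 3, 8, 9])) (.ind [11, 12, 0, 8, 9])) (.ind [10, 12, 0, 8, 9])) (.ind [10, 11, 0, 8, 9])))))))))))
  (.br 5 10 (.br 1 8 (.cyc 1 [5, 10, 7, 8]) (.br 3 10 (.cyc 3 [0, 1, 5, 10])
  (.br 4 10 (.cyc 4 [0, 1, 5, 10]) (.br 6 10 (.cyc 6 [0, 1, 5, 10])
  (.br 8 9 (.cyc 8 [5, 10, 7, 9]) (.br 8 10 (.clq [8, 10, 5, 7]) (.br 9 10 (.cyc 9 [7, 8, 5, 10])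
  (.br 10 11 (.cyc 10 [5, 1, 2, 11]) (.br 10 12 (.cyc 10 [5, 1, 2, 12]) (.br 11 12
  (.br 1 11 (.cyc 1 [0, 2, 12, 11]) (.ind [1, 11, 3, 8, 10])) (.ind [11, 12, 0, 8, 10]))))))))))) (.ext [5]
  (.br 5 13 (.br 0 13 (.cyc 0 [2, 1, 5, 13]) t43x9) .done))))

def t43x11 : Tr :=
  (.br 2 13 (.cyc 2 [0, 1, 5, 13]) (.br 3 13 (.cyc 3 [0, 1, 5, 13])
  (.br 4 13 (.cyc 4 [0, 1, 5, 13]) (.br 6 13 (.cyc 6 [0, 1, 5, 13])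
  (.br 8 13 (.cyc 8 [7, 9, 5, 13]) (.br 10 13 (.cyc 10 [7, 9, 5, 13])
  (.br 11 13 (.cyc 11 [2, 1, 5, 13]) (.br 12 13 (.cyc 12 [2, 1, 5, 13]) (.br 7 13
  (.br 1 9 (.cyc 1 [5, 13, 7, 9]) (.br 1 13 (.cyc 1 [5, 9, 7, 13])
  (.br 8 9 (.cyc 8 [7, 13, 5, 9]) (.br 9 10 (.cyc 9 [5, 13, 7, 10])
  (.br 9 13 (.clq [9, 13, 5, 7]) (.br 10 11 (.br 10 12 (.br 11 12
  (.br 1 11 (.cyc 1 [0, 2, 12, 11]) (.ind [1, 11, 3, 9, 13])) (.ind [11, 12, 0, 9, 13])) (.ind [10, 12, 0, 9, 13])) (.ind [10, 11, 0, 9, 13])))))))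
  (.br 3 4
  (.br 4 6 (.clq [4, 6, 0, 3]) (.ind [4, 6, 2, 7, 13])) (.ind [3, 4, 2, 7, 13])))))))))))

def t43x12 : Tr :=
  (.br 3 9 (.cyc 3 [0, 1, 5, 9]) (.br 4 9 (.cyc 4 [0, 1, 5, 9]) (.br 6 9 (.cyc 6 [0, 1, 5, 9])
  (.br 9 11 (.cyc 9 [5, 1, 2, 11]) (.br 9 12 (.cyc 9 [5, 1, 2, 12]) (.br 5 10
  (.br 1 9 (.cyc 1 [5, 10, 7, 9]) (.br 3 10 (.cyc 3 [0, 1, 5, 10])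
  (.br 4 10 (.cyc 4 [0, 1, 5, 10]) (.br 6 10 (.cyc 6 [0, 1, 5, 10])
  (.br 8 9 (.cyc 8 [7, 10, 5, 9]) (.br 8 10 (.cyc 8 [7, 9, 5, 10]) (.br 9 10 (.clq [9, 10, 5, 7])
  (.br 10 11 (.cyc 10 [5, 1, 2, 11]) (.br 10 12 (.cyc 10 [5, 1, 2, 12]) (.br 11 12
  (.br 1 11 (.cyc 1 [0, 2, 12, 11]) (.ind [1, 11, 3, 9, 10])) (.ind [11, 12, 0, 9, 10]))))))))))) (.ext [5]
  (.br 5 13 (.br 0 13 (.cyc 0 [2, 1, 5, 13]) t43x11) .done))))))))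

def t43x13 : Tr :=
  (.br 1 10 (.cyc 1 [5, 13, 7, 10]) (.br 8 14 (.cyc 8 [7, 13, 5, 14])
  (.br 9 14 (.cyc 9 [7, 13, 5, 14]) (.br 10 14 (.cyc 10 [7, 13, 5, 14]) (.br 7 14
  (.br 1 13 (.cyc 1 [5, 14, 7, 13]) (.br 1 14 (.cyc 1 [5, 13, 7, 14])
  (.br 8 13 (.cyc 8 [7, 14, 5, 13]) (.br 9 13 (.cyc 9 [7, 14, 5, 13])
  (.br 10 13 (.cyc 10 [7, 14, 5, 13]) (.br 13 14 (.clq [13, 14, 5, 7]) (.br 1 11 (.br 1 12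
  (.br 3 4 (.br 3 8 (.br 3 9 (.br 3 10
  (.br 4 6 (.clq [4, 6, 0, 3]) (.ind [4, 6, 2, 13, 14])) (.ind [3, 10, 1, 13, 14])) (.ind [3, 9, 1, 13, 14])) (.ind [3, 8, 1, 13, 14])) (.ind [3, 4, 2, 13, 14])) (.ind [1, 12, 3, 13, 14])) (.ind [1, 11, 3, 13, 14]))))))))
  (.br 3 4 (.br 4 6 (.clq [4, 6, 0, 3]) (.ind [4, 6, 2, 7, 14])) (.ind [3, 4, 2, 7, 14])))))))

def t43x14 : Tr :=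
  (.br 5 10 (.br 1 8 (.cyc 1 [5, 10, 7, 8]) (.br 1 9 (.cyc 1 [5, 10, 7, 9])
  (.br 3 10 (.cyc 3 [0, 1, 5, 10]) (.br 4 10 (.cyc 4 [0, 1, 5, 10])
  (.br 6 10 (.cyc 6 [0, 1, 5, 10]) (.br 8 13 (.cyc 8 [7, 10, 5, 13])
  (.br 9 13 (.cyc 9 [7, 10, 5, 13]) (.br 10 11 (.cyc 10 [5, 1, 2, 11])
  (.br 10 12 (.cyc 10 [5, 1, 2, 12]) (.br 7 13 (.br 1 10 (.cyc 1 [5, 13, 7, 10])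
  (.br 1 13 (.cyc 1 [5, 10, 7, 13]) (.br 8 10 (.cyc 8 [7, 13, 5, 10])
  (.br 9 10 (.cyc 9 [7, 13, 5, 10]) (.br 10 13 (.clq [10, 13, 5, 7]) (.br 11 12
  (.br 1 11 (.cyc 1 [0, 2, 12, 11]) (.ind [1, 11, 3, 10, 13])) (.ind [11, 12, 0, 10, 13])))))))
  (.br 3 4
  (.br 4 6 (.clq [4, 6, 0, 3]) (.ind [4, 6, 2, 7, 13])) (.ind [3, 4, 2, 7, 13])))))))))))) (.ext [5]
  (.br 5 14 (.br 0 14 (.cyc 0 [2, 1, 5, 14]) (.br 2 14 (.cyc 2 [0, 1, 5, 14])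
  (.br 3 14 (.cyc 3 [0, 1, 5, 14]) (.br 4 14 (.cyc 4 [0, 1, 5, 14])
  (.br 6 14 (.cyc 6 [0, 1, 5, 14]) (.br 11 14 (.cyc 11 [2, 1, 5, 14])
  (.br 12 14 (.cyc 12 [2, 1, 5, 14]) (.br 7 13 (.br 1 8 (.cyc 1 [5, 13, 7, 8])
  (.br 1 9 (.cyc 1 [5, 13, 7, 9]) t43x13)) (.br 3 4
  (.br 4 6 (.clq [4, 6, 0, 3]) (.ind [4, 6, 2, 7, 13])) (.ind [3, 4, 2, 7, 13])))))))))) .done)))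

def t43x15 : Tr :=
  (.br 5 8 (.br 1 9 (.cyc 1 [5, 8, 7, 9]) (.br 1 10 (.cyc 1 [5, 8, 7, 10])
  (.br 3 8 (.cyc 3 [0, 1, 5, 8]) (.br 4 8 (.cyc 4 [0, 1, 5, 8]) (.br 6 8 (.cyc 6 [0, 1, 5, 8])
  (.br 8 11 (.cyc 8 [5, 1, 2, 11]) (.br 8 12 (.cyc 8 [5, 1, 2, 12]) t43x10))))))) (.br 5 9
  (.br 1 8 (.cyc 1 [5, 9, 7, 8]) (.br 1 10 (.cyc 1 [5, 9, 7, 10]) t43x12)) (.ext [5] (.br 5 13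
  (.br 0 13 (.cyc 0 [2, 1, 5, 13]) (.br 2 13 (.cyc 2 [0, 1, 5, 13])
  (.br 3 13 (.cyc 3 [0, 1, 5, 13]) (.br 4 13 (.cyc 4 [0, 1, 5, 13])
  (.br 6 13 (.cyc 6 [0, 1, 5, 13]) (.br 11 13 (.cyc 11 [2, 1, 5, 13])
  (.br 12 13 (.cyc 12 [2, 1, 5, 13]) t43x14))))))) .done))))

def t43x16 : Tr :=
  (.br 2 5 (.br 1 4 (.cyc 1 [5, 2, 0, 4]) (.br 1 8 (.cyc 1 [2, 5, 7, 8])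
  (.br 1 9 (.cyc 1 [2, 5, 7, 9]) (.br 1 10 (.cyc 1 [2, 5, 7, 10])
  (.br 8 11 (.cyc 8 [7, 5, 2, 11]) (.br 9 11 (.cyc 9 [7, 5, 2, 11])
  (.br 10 11 (.cyc 10 [7, 5, 2, 11]) (.ext [11] (.br 11 12 (.br 0 12 (.cyc 0 [1, 2, 11, 12])
  (.br 1 12 (.cyc 1 [0, 2, 11, 12]) (.br 3 12 (.cyc 3 [0, 2, 11, 12])
  (.br 4 12 (.cyc 4 [0, 2, 11, 12]) (.br 5 12 (.cyc 5 [1, 2, 11, 12])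
  (.br 6 12 (.cyc 6 [0, 2, 11, 12]) (.br 7 12 (.cyc 7 [5, 2, 11, 12]) (.br 3 4
  (.br 4 6 (.clq [4, 6, 0, 3]) (.ind [4, 6, 1, 7, 12])) (.ind [3, 4, 1, 7, 12]))))))))) .done))))))))) (.ext [2]
  (.br 2 12 (.br 3 12 (.cyc 3 [0, 1, 2, 12]) (.br 4 12 (.cyc 4 [0, 1, 2, 12])
  (.br 5 12 (.cyc 5 [1, 0, 2, 12]) (.br 6 12 (.cyc 6 [0, 1, 2, 12])
  (.br 7 12 (.cyc 7 [5, 1, 2, 12]) (.br 0 12 (.br 1 4 (.cyc 1 [2, 12, 0, 4])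
  (.br 1 11 (.cyc 1 [0, 12, 2, 11]) (.br 1 12 (.clq [1, 12, 0, 2]) (.br 3 4
  (.br 4 6 (.clq [4, 6, 0, 3]) (.ind [4, 6, 1, 7, 11])) (.ind [3, 4, 1, 7, 11]))))) t43x15)))))) .done)))

def t43x17 : Tr :=
  (.br 2 4 (.br 1 4 (.clq [1, 4, 0, 2]) (.br 2 5 (.cyc 2 [4, 0, 1, 5])
  (.br 3 4 (.cyc 3 [0, 1, 2, 4]) (.br 4 6 (.cyc 4 [2, 0, 3, 6]) (.ext [2] (.br 2 11
  (.br 1 11 (.cyc 1 [0, 4, 2, 11]) (.br 3 11 (.cyc 3 [0, 1, 2, 11])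
  (.br 4 11 (.cyc 4 [0, 1, 2, 11]) (.br 5 11 (.cyc 5 [1, 0, 2, 11])
  (.br 6 11 (.cyc 6 [0, 1, 2, 11])
  (.br 7 11 (.cyc 7 [5, 1, 2, 11]) (.ind [7, 11, 1, 3, 4]))))))) .done)))))) (.ext [2] (.br 2 11
  (.br 3 11 (.cyc 3 [0, 1, 2, 11]) (.br 4 11 (.cyc 4 [0, 1, 2, 11])
  (.br 5 11 (.cyc 5 [1, 0, 2, 11]) (.br 6 11 (.cyc 6 [0, 1, 2, 11])
  (.br 7 11 (.cyc 7 [5, 1, 2, 11]) (.br 0 11 (.br 1 4 (.cyc 1 [2, 11, 0, 4])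
  (.br 1 11 (.clq [1, 11, 0, 2]) (.br 2 5 (.cyc 2 [11, 0, 1, 5]) (.br 3 4
  (.br 4 6 (.clq [4, 6, 0, 3]) (.ind [4, 6, 1, 7, 11])) (.ind [3, 4, 1, 7, 11]))))) t43x16)))))) .done)))

def t43x18 : Tr :=
  (.br 6 12 (.br 11 14 (.cyc 11 [9, 12, 6, 14]) (.br 12 14 (.cyc 12 [9, 11, 6, 14]) (.br 7 14
  (.br 8 11 (.cyc 8 [7, 14, 6, 11]) (.br 8 12 (.cyc 8 [7, 14, 6, 12])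
  (.br 10 11 (.cyc 10 [7, 14, 6, 11]) (.br 10 12 (.cyc 10 [7, 14, 6, 12])
  (.br 11 13 (.cyc 11 [6, 14, 7, 13]) (.br 12 13 (.cyc 12 [6, 14, 7, 13])
  (.br 4 8 (.cyc 4 [3, 14, 7, 8]) (.br 4 10 (.cyc 4 [3, 14, 7, 10])
  (.br 4 13 (.cyc 4 [3, 14, 7, 13]) (.br 6 8 (.cyc 6 [3, 14, 7, 8])
  (.br 6 10 (.cyc 6 [3, 14, 7, 10]) (.br 6 13 (.cyc 6 [3, 14, 7, 13]) (.br 8 10 (.br 8 13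
  (.br 8 14
  (.br 10 13 (.cyc 10 [7, 14, 8, 13]) (.ind [10, 13, 0, 6, 9])) (.ind [8, 14, 1, 4, 11])) (.ind [8, 13, 0, 6, 9])) (.ind [8, 10, 0, 6, 9])))))))))))))) (.ind [7, 14, 1, 4, 11])))) (.ind [6, 12, 1, 4, 7]))

def t43x19 : Tr :=
  (.br 3 13 (.br 4 8 (.cyc 4 [3, 13, 7, 8]) (.br 4 10 (.cyc 4 [3, 13, 7, 10])
  (.br 5 13 (.cyc 5 [1, 0, 3, 13]) (.br 6 8 (.cyc 6 [3, 13, 7, 8])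
  (.br 6 10 (.cyc 6 [3, 13, 7, 10]) (.br 6 13 (.br 8 10 (.br 4 6 (.cyc 4 [0, 3, 13, 6])
  (.br 4 13 (.cyc 4 [0, 3, 6, 13]) (.br 5 8
  (.br 5 10 (.clq [5, 10, 7, 8]) (.ind [5, 10, 0, 6, 9])) (.ind [5, 8, 0, 6, 9])))) (.ind [8, 10, 0, 6, 9])) (.ind [6, 13, 0, 5, 9]))))))) (.ext [3]
  (.br 3 14 (.br 1 14 (.cyc 1 [0, 4, 3, 14]) (.br 2 14 (.cyc 2 [0, 4, 3, 14])
  (.br 5 14 (.cyc 5 [1, 0, 3, 14]) (.br 9 14 (.cyc 9 [1, 0, 3, 14]) (.br 0 14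
  (.br 4 6 (.cyc 4 [0, 14, 3, 6]) (.br 4 14 (.clq [4, 14, 0, 3]) (.br 6 11 (.br 6 12
  (.br 6 14 (.cyc 6 [3, 4, 0, 14]) (.ind [6, 14, 4, 5, 9])) (.ind [6, 12, 1, 4, 7])) (.ind [6, 11, 1, 4, 7]))))
  (.br 6 14 (.br 4 6 (.cyc 4 [0, 3, 14, 6]) (.br 4 14 (.cyc 4 [0, 3, 6, 14])
  (.br 6 11 t43x18 (.ind [6, 11, 1, 4, 7])))) (.ind [6, 14, 0, 5, 9]))))))) .done)))

def t43x20 : Tr :=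
  (.br 3 8 (.br 4 10 (.cyc 4 [3, 8, 7, 10]) (.br 4 13 (.cyc 4 [3, 8, 7, 13])
  (.br 5 8 (.cyc 5 [1, 0, 3, 8]) (.br 6 8 (.br 6 10 (.cyc 6 [3, 8, 7, 10])
  (.br 6 13 (.cyc 6 [3, 8, 7, 13]) (.br 10 13 (.br 3 10 (.cyc 3 [6, 8, 7, 10])
  (.br 3 13 (.cyc 3 [6, 8, 7, 13]) (.br 4 6 (.cyc 4 [0, 3, 8, 6]) (.br 4 8 (.cyc 4 [0, 3, 6, 8])
  (.br 5 10
  (.br 5 13 (.clq [5, 13, 7, 10]) (.ind [5, 13, 0, 6, 9])) (.ind [5, 10, 0, 6, 9])))))) (.ind [10, 13, 0, 6, 9])))) (.ind [6, 8, 0, 5, 9])))))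
  (.br 3 10 (.br 4 8 (.cyc 4 [3, 10, 7, 8]) (.br 4 13 (.cyc 4 [3, 10, 7, 13])
  (.br 5 10 (.cyc 5 [1, 0, 3, 10]) (.br 6 8 (.cyc 6 [3, 10, 7, 8]) (.br 6 10
  (.br 6 13 (.cyc 6 [3, 10, 7, 13]) (.br 8 13 (.br 3 13 (.cyc 3 [6, 10, 7, 13])
  (.br 4 6 (.cyc 4 [0, 3, 10, 6]) (.br 4 10 (.cyc 4 [0, 3, 6, 10]) (.br 5 8
  (.br 5 13 (.clq [5, 13, 7, 8]) (.ind [5, 13, 0, 6, 9])) (.ind [5, 8, 0, 6, 9]))))) (.ind [8, 13, 0, 6, 9]))) (.ind [6, 10, 0, 5, 9])))))) t43x19))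

def t43x21 : Tr :=
  (.br 7 6 (.br 4 8 (.cyc 4 [3, 6, 7, 8]) (.br 4 10 (.cyc 4 [3, 6, 7, 10]) (.ext [4] (.br 4 13
  (.br 1 13 (.cyc 1 [0, 3, 4, 13]) (.br 2 13 (.cyc 2 [0, 3, 4, 13])
  (.br 5 13 (.cyc 5 [1, 0, 4, 13]) (.br 6 13 (.cyc 6 [3, 0, 4, 13])
  (.br 7 13 (.cyc 7 [6, 3, 4, 13]) (.br 9 13 (.cyc 9 [1, 0, 4, 13]) (.br 0 13
  (.br 3 13 (.clq [3, 13, 0, 4]) (.br 4 6 (.cyc 4 [13, 0, 3, 6])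
  (.br 11 13 (.cyc 11 [9, 1, 0, 13]) (.ind [11, 13, 1, 3, 7])))) (.ind [0, 13, 5, 6, 9])))))))) .done)))) (.ext [7]
  (.br 7 13 (.br 0 13 (.cyc 0 [1, 5, 7, 13]) (.br 1 13 (.cyc 1 [2, 5, 7, 13])
  (.br 2 13 (.cyc 2 [1, 5, 7, 13]) (.br 9 13 (.cyc 9 [1, 5, 7, 13]) t43x20)))) .done)))

def t43x22 : Tr :=
  (.br 0 12 (.cyc 0 [2, 1, 9, 12]) (.br 2 12 (.cyc 2 [0, 1, 9, 12])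
  (.br 3 12 (.cyc 3 [0, 1, 9, 12]) (.br 4 12 (.cyc 4 [0, 1, 9, 12])
  (.br 5 12 (.cyc 5 [2, 1, 9, 12]) (.br 7 12 (.cyc 7 [5, 1, 9, 12]) (.br 11 12 (.br 2 9
  (.br 1 11 (.cyc 1 [0, 2, 9, 11]) (.br 1 12 (.cyc 1 [0, 2, 9, 12]) t43x21)) (.ext [2] (.br 2 13
  (.br 0 13 (.cyc 0 [1, 5, 2, 13]) (.br 3 13 (.cyc 3 [0, 1, 2, 13])
  (.br 4 13 (.cyc 4 [0, 1, 2, 13]) (.br 5 13 (.cyc 5 [1, 0, 2, 13])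
  (.br 6 13 (.cyc 6 [3, 0, 2, 13]) (.br 7 13 (.cyc 7 [5, 1, 2, 13])
  (.br 8 13 (.cyc 8 [7, 5, 2, 13])
  (.br 9 13 (.cyc 9 [1, 0, 2, 13]) (.ind [9, 13, 0, 5, 6]))))))))) .done))) (.ind [11, 12, 2, 3, 7]))))))))

def t43x23 : Tr :=
  (.br 5 9 (.cyc 5 [2, 0, 1, 9]) (.br 6 9 (.cyc 6 [3, 0, 1, 9]) (.br 7 9 (.cyc 7 [5, 2, 1, 9])
  (.br 8 9 (.cyc 8 [7, 5, 1, 9]) (.ext [7] (.br 7 10 (.br 0 10 (.cyc 0 [1, 5, 7, 10])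
  (.br 1 10 (.cyc 1 [2, 5, 7, 10]) (.br 2 10 (.cyc 2 [1, 5, 7, 10])
  (.br 9 10 (.cyc 9 [1, 5, 7, 10]) (.ext [9] (.br 9 11 (.br 0 11 (.cyc 0 [2, 1, 9, 11])
  (.br 2 11 (.cyc 2 [0, 1, 9, 11]) (.br 3 11 (.cyc 3 [0, 1, 9, 11])
  (.br 4 11 (.cyc 4 [0, 1, 9, 11]) (.br 5 11 (.cyc 5 [2, 1, 9, 11])
  (.br 7 11 (.cyc 7 [5, 1, 9, 11]) (.br 3 4 (.ext [9]
  (.br 9 12 t43x22 .done)) (.ind [3, 4, 2, 7, 11])))))))) .done)))))) .done))))))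

def t43x24 : Tr :=
  (.br 1 9 (.br 6 9 (.cyc 6 [3, 0, 1, 9]) (.br 7 9 (.cyc 7 [8, 5, 1, 9])
  (.br 8 9 (.cyc 8 [7, 5, 1, 9]) (.br 9 10 (.cyc 9 [1, 0, 3, 10])
  (.br 9 11 (.cyc 9 [1, 0, 4, 11]) (.br 9 12 (.cyc 9 [1, 0, 4, 12]) (.ext [9] (.br 9 13
  (.br 0 13 (.cyc 0 [1, 5, 9, 13]) (.br 2 13 (.cyc 2 [0, 1, 9, 13])
  (.br 3 13 (.cyc 3 [0, 1, 9, 13]) (.br 4 13 (.cyc 4 [0, 1, 9, 13])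
  (.br 7 13 (.cyc 7 [5, 1, 9, 13]) (.br 8 13 (.cyc 8 [5, 1, 9, 13]) (.br 1 13
  (.br 5 13 (.clq [5, 13, 1, 9]) (.br 6 13 (.cyc 6 [3, 0, 1, 13])
  (.br 10 13 (.cyc 10 [3, 0, 1, 13])
  (.br 11 13 (.cyc 11 [4, 0, 1, 13]) (.ind [11, 13, 0, 5, 6]))))) (.ind [1, 13, 3, 4, 7])))))))) .done))))))))
  (.br 7 9 (.br 8 9 (.clq [8, 9, 5, 7]) (.ind [8, 9, 1, 3, 4])) (.ind [7, 9, 1, 3, 4])))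

def t43x25 : Tr :=
  (.br 2 4 (.br 0 11 (.cyc 0 [1, 2, 4, 11]) (.br 0 12 (.cyc 0 [1, 2, 4, 12]) (.br 1 7
  (.br 1 8 (.clq [1, 8, 5, 7]) (.br 1 9 (.cyc 1 [7, 8, 5, 9]) (.br 6 7 (.cyc 6 [3, 0, 1, 7])
  (.br 7 10 (.cyc 7 [1, 0, 3, 10]) (.br 7 11 (.cyc 7 [1, 0, 4, 11])
  (.br 7 12 (.cyc 7 [1, 0, 4, 12]) (.br 8 9 (.cyc 8 [7, 1, 5, 9]) (.ind [8, 9, 1, 3, 4]))))))))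
  (.br 1 8 (.br 1 9 (.cyc 1 [8, 7, 5, 9]) (.br 6 8 (.cyc 6 [3, 0, 1, 8])
  (.br 7 9 (.cyc 7 [8, 1, 5, 9]) (.ind [7, 9, 1, 3, 4])))) t43x24)))) (.ext [2] (.br 2 13
  (.br 1 13 (.cyc 1 [0, 3, 2, 13]) (.br 3 13 (.cyc 3 [0, 1, 2, 13])
  (.br 4 13 (.cyc 4 [0, 1, 2, 13]) (.br 5 13 (.cyc 5 [1, 0, 2, 13])
  (.br 6 13 (.cyc 6 [3, 0, 2, 13]) (.br 7 13 (.cyc 7 [5, 1, 2, 13])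
  (.br 8 13 (.cyc 8 [5, 1, 2, 13]) (.br 9 13 (.cyc 9 [5, 1, 2, 13])
  (.br 10 13 (.cyc 10 [3, 0, 2, 13]) (.br 11 13 (.cyc 11 [4, 0, 2, 13])
  (.br 12 13 (.cyc 12 [4, 0, 2, 13]) (.br 1 7
  (.br 1 8 (.clq [1, 8, 5, 7]) (.ind [1, 8, 3, 4, 13])) (.ind [1, 7, 3, 4, 13]))))))))))))) .done)))

def t43x26 : Tr :=
  (.br 2 10 (.cyc 2 [1, 0, 3, 10]) (.br 4 10 (.cyc 4 [0, 2, 3, 10])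
  (.br 5 10 (.cyc 5 [1, 0, 3, 10]) (.ext [4] (.br 4 11 (.br 1 11 (.cyc 1 [2, 0, 4, 11])
  (.br 2 11 (.cyc 2 [1, 0, 4, 11]) (.br 3 11 (.cyc 3 [2, 0, 4, 11])
  (.br 5 11 (.cyc 5 [1, 0, 4, 11]) (.br 6 11 (.cyc 6 [3, 0, 4, 11])
  (.br 10 11 (.cyc 10 [3, 0, 4, 11]) (.br 6 10 (.ext [4] (.br 4 12
  (.br 1 12 (.cyc 1 [2, 0, 4, 12]) (.br 2 12 (.cyc 2 [1, 0, 4, 12])
  (.br 3 12 (.cyc 3 [2, 0, 4, 12]) (.br 5 12 (.cyc 5 [1, 0, 4, 12])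
  (.br 6 12 (.cyc 6 [3, 0, 4, 12]) (.br 10 12 (.cyc 10 [3, 0, 4, 12])
  (.br 11 12 t43x25 (.ind [11, 12, 2, 5, 6])))))))) .done)) (.ind [6, 10, 2, 5, 11])))))))) .done)))))

def t43x27 : Tr :=
  (.br 4 6 (.cyc 4 [0, 3, 11, 6]) (.br 4 11 (.cyc 4 [0, 3, 6, 11]) (.ext [4] (.br 4 15
  (.br 1 15 (.cyc 1 [0, 3, 4, 15]) (.br 2 15 (.cyc 2 [0, 3, 4, 15])
  (.br 5 15 (.cyc 5 [1, 0, 4, 15]) (.br 6 15 (.cyc 6 [3, 0, 4, 15])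
  (.br 10 15 (.cyc 10 [2, 0, 4, 15]) (.br 11 15 (.cyc 11 [3, 0, 4, 15])
  (.br 12 15 (.cyc 12 [2, 0, 4, 15]) (.br 0 15 (.br 3 15 (.clq [3, 15, 0, 4])
  (.br 7 15 (.cyc 7 [5, 1, 0, 15]) (.br 8 15 (.cyc 8 [5, 1, 0, 15])
  (.br 9 15 (.cyc 9 [5, 1, 0, 15]) (.br 13 15 (.cyc 13 [10, 2, 0, 15])
  (.br 14 15 (.cyc 14 [10, 2, 0, 15]) (.br 1 7
  (.br 1 8 (.clq [1, 8, 5, 7]) (.ind [1, 8, 3, 10, 15])) (.ind [1, 7, 3, 10, 15])))))))) (.ind [0, 15, 5, 6, 10]))))))))) .done))))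

def t43x28 : Tr :=
  (.br 9 12 (.cyc 9 [5, 1, 2, 12]) (.br 11 12 (.cyc 11 [3, 0, 2, 12]) (.ext [10] (.br 10 13
  (.br 0 13 (.cyc 0 [1, 2, 10, 13]) (.br 1 13 (.cyc 1 [0, 2, 10, 13])
  (.br 3 13 (.cyc 3 [0, 2, 10, 13]) (.br 4 13 (.cyc 4 [0, 2, 10, 13])
  (.br 5 13 (.cyc 5 [1, 2, 10, 13]) (.ext [10] (.br 10 14 (.br 0 14 (.cyc 0 [1, 2, 10, 14])
  (.br 1 14 (.cyc 1 [0, 2, 10, 14]) (.br 3 14 (.cyc 3 [0, 2, 10, 14])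
  (.br 4 14 (.cyc 4 [0, 2, 10, 14]) (.br 5 14 (.cyc 5 [1, 2, 10, 14]) (.br 0 11
  (.br 4 6 (.cyc 4 [0, 11, 3, 6]) (.br 4 11 (.clq [4, 11, 0, 3])
  (.br 6 11 (.cyc 6 [3, 4, 0, 11]) (.ind [6, 11, 1, 4, 10]))))
  (.br 6 11 t43x27 (.ind [6, 11, 0, 5, 10])))))))) .done))))))) .done))))

def t43x29 : Tr :=
  (.br 4 6 (.br 0 11 (.cyc 0 [4, 6, 3, 11]) (.br 6 11 (.cyc 6 [4, 0, 3, 11]) (.br 10 13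
  (.br 0 10 (.cyc 0 [1, 2, 13, 10]) (.ind [0, 10, 5, 6, 11])) (.ind [10, 13, 5, 6, 11]))))
  (.br 6 12 (.br 10 13 (.br 0 10 (.cyc 0 [1, 2, 13, 10]) (.br 0 13 (.cyc 0 [1, 2, 10, 13])
  (.br 1 10 (.cyc 1 [0, 2, 13, 10]) (.br 1 13 (.cyc 1 [0, 2, 10, 13]) (.ext [4] (.br 4 14
  (.br 1 14 (.cyc 1 [0, 3, 4, 14]) (.br 2 14 (.cyc 2 [0, 3, 4, 14])
  (.br 5 14 (.cyc 5 [1, 0, 4, 14]) (.br 6 14 (.cyc 6 [3, 0, 4, 14])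
  (.br 10 14 (.cyc 10 [2, 0, 4, 14]) (.br 11 14 (.cyc 11 [3, 0, 4, 14])
  (.br 12 14 (.cyc 12 [6, 3, 4, 14]) (.br 13 14 (.cyc 13 [2, 0, 4, 14]) (.br 0 14
  (.br 3 14 (.clq [3, 14, 0, 4]) (.ind [3, 14, 2, 5, 12])) (.ind [0, 14, 5, 6, 10])))))))))) .done)))))) (.ind [10, 13, 4, 5, 6])) (.ind [6, 12, 2, 4, 5])))

def t43x30 : Tr :=
  (.br 3 4 (.br 1 4 (.cyc 1 [2, 0, 3, 4]) (.br 2 4 (.cyc 2 [1, 0, 3, 4]) (.br 2 12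
  (.br 0 10 (.cyc 0 [1, 2, 12, 10]) (.br 1 10 (.cyc 1 [0, 2, 12, 10])
  (.br 6 12 (.cyc 6 [3, 0, 2, 12]) (.br 7 12 (.cyc 7 [5, 1, 2, 12])
  (.br 8 12 (.cyc 8 [5, 1, 2, 12]) t43x28))))) (.ext [2] (.br 2 13
  (.br 3 13 (.cyc 3 [0, 1, 2, 13]) (.br 4 13 (.cyc 4 [0, 1, 2, 13])
  (.br 5 13 (.cyc 5 [1, 0, 2, 13]) (.br 6 13 (.cyc 6 [3, 0, 2, 13])
  (.br 7 13 (.cyc 7 [5, 1, 2, 13]) (.br 8 13 (.cyc 8 [5, 1, 2, 13])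
  (.br 9 13 (.cyc 9 [5, 1, 2, 13]) (.br 11 13 (.cyc 11 [3, 0, 2, 13]) t43x29)))))))) .done)))))
  (.br 7 9 (.br 8 9 (.clq [8, 9, 5, 7]) (.ind [8, 9, 3, 4, 10])) (.ind [7, 9, 3, 4, 10])))

def t43x31 : Tr :=
  (.br 2 10 (.br 3 10 (.cyc 3 [0, 1, 2, 10]) (.br 4 10 (.cyc 4 [0, 1, 2, 10])
  (.br 5 10 (.cyc 5 [1, 0, 2, 10]) (.br 6 10 (.cyc 6 [3, 0, 2, 10])
  (.br 7 10 (.cyc 7 [5, 1, 2, 10]) (.br 8 10 (.cyc 8 [5, 1, 2, 10])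
  (.br 9 10 (.cyc 9 [5, 1, 2, 10]) (.ext [3] (.br 3 11 (.br 1 11 (.cyc 1 [2, 0, 3, 11])
  (.br 2 11 (.cyc 2 [1, 0, 3, 11]) (.br 5 11 (.cyc 5 [1, 0, 3, 11])
  (.br 10 11 (.cyc 10 [2, 0, 3, 11]) (.ext [10] (.br 10 12 (.br 0 12 (.cyc 0 [1, 2, 10, 12])
  (.br 1 12 (.cyc 1 [0, 2, 10, 12]) (.br 3 12 (.cyc 3 [0, 2, 10, 12])
  (.br 4 12 (.cyc 4 [0, 2, 10, 12])
  (.br 5 12 (.cyc 5 [1, 2, 10, 12]) t43x30))))) .done)))))) .done))))))))) .done)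

def t43x32 : Tr :=
  (.br 2 12 (.br 1 12 (.cyc 1 [0, 3, 2, 12]) (.br 3 12 (.cyc 3 [0, 1, 2, 12])
  (.br 4 12 (.cyc 4 [0, 1, 2, 12]) (.br 5 12 (.cyc 5 [1, 0, 2, 12])
  (.br 6 12 (.cyc 6 [3, 0, 2, 12]) (.br 7 12 (.cyc 7 [5, 1, 2, 12])
  (.br 9 12 (.cyc 9 [5, 1, 2, 12]) (.br 10 12 (.cyc 10 [5, 1, 2, 12])
  (.br 11 12 (.cyc 11 [0, 1, 2, 12]) (.br 1 7 (.br 1 9 (.br 1 10 (.br 3 8 (.cyc 3 [0, 1, 7, 8])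
  (.br 4 8 (.cyc 4 [0, 1, 7, 8]) (.br 6 7 (.cyc 6 [3, 0, 1, 7]) (.br 6 8
  (.br 6 9 (.cyc 6 [3, 0, 1, 9]) (.br 6 10 (.cyc 6 [3, 0, 1, 10])
  (.br 7 9 (.cyc 7 [1, 10, 5, 9]) (.ind [7, 9, 2, 4, 6])))) (.ind [6, 8, 2, 4, 5]))))) (.ind [1, 10, 3, 4, 12])) (.ind [1, 9, 3, 4, 12])) (.ind [1, 7, 3, 4, 12]))))))))))) .done)

def t43x33 : Tr :=
  (.br 0 12 (.cyc 0 [1, 2, 4, 12]) (.br 1 12 (.cyc 1 [0, 2, 4, 12])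
  (.br 2 12 (.cyc 2 [1, 0, 4, 12]) (.br 3 12 (.cyc 3 [0, 2, 4, 12])
  (.br 5 12 (.cyc 5 [1, 0, 4, 12]) (.br 6 12 (.cyc 6 [3, 0, 4, 12])
  (.br 8 12 (.cyc 8 [3, 0, 4, 12]) (.br 11 12 (.ext [6] (.br 6 13
  (.br 0 13 (.cyc 0 [2, 3, 6, 13]) (.br 1 13 (.cyc 1 [0, 3, 6, 13])
  (.br 2 13 (.cyc 2 [0, 3, 6, 13]) (.br 4 13 (.cyc 4 [0, 3, 6, 13])
  (.br 5 13 (.cyc 5 [7, 8, 6, 13]) (.br 7 13 (.cyc 7 [8, 3, 6, 13]) (.br 3 13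
  (.br 6 7 (.cyc 6 [13, 3, 8, 7]) (.br 8 13 (.clq [8, 13, 3, 6])
  (.br 11 13 (.cyc 11 [4, 0, 3, 13]) (.ind [11, 13, 0, 5, 8])))) (.ind [3, 13, 1, 4, 7])))))))) .done)) (.ind [11, 12, 0, 5, 6])))))))))

def t43x34 : Tr :=
  (.br 1 10 (.br 6 10 (.cyc 6 [3, 0, 1, 10]) (.br 7 9 (.cyc 7 [5, 10, 1, 9])
  (.br 7 10 (.cyc 7 [5, 9, 1, 10]) (.br 8 10 (.cyc 8 [7, 5, 1, 10])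
  (.br 9 10 (.clq [9, 10, 1, 5]) (.ind [9, 10, 3, 4, 7])))))) (.br 7 10 (.br 8 10
  (.br 9 10 (.cyc 9 [1, 5, 7, 10]) (.br 7 9 (.cyc 7 [8, 10, 5, 9]) (.ext [9] (.br 9 14
  (.br 0 14 (.cyc 0 [1, 5, 9, 14]) (.br 2 14 (.cyc 2 [0, 1, 9, 14])
  (.br 3 14 (.cyc 3 [0, 1, 9, 14]) (.br 4 14 (.cyc 4 [0, 1, 9, 14])
  (.br 7 14 (.cyc 7 [5, 1, 9, 14]) (.br 8 14 (.cyc 8 [7, 5, 9, 14])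
  (.br 10 14 (.cyc 10 [5, 1, 9, 14]) (.br 1 14
  (.br 5 14 (.clq [5, 14, 1, 9]) (.ind [5, 14, 3, 4, 8])) (.ind [1, 14, 3, 4, 7]))))))))) .done)))) (.ind [8, 10, 1, 3, 4])) (.ind [7, 10, 1, 3, 4])))

def t43x35 : Tr :=
  (.br 8 9 (.br 8 10 (.cyc 8 [7, 9, 5, 10]) (.br 9 10 (.cyc 9 [8, 7, 5, 10]) (.br 1 10
  (.br 6 10 (.cyc 6 [3, 0, 1, 10]) (.br 7 10 (.cyc 7 [8, 9, 5, 10])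
  (.br 10 11 (.cyc 10 [1, 0, 4, 11]) (.br 10 12 (.cyc 10 [1, 0, 3, 12])
  (.br 10 13 (.cyc 10 [1, 0, 4, 13]) (.ext [10] (.br 10 14 (.br 0 14 (.cyc 0 [1, 5, 10, 14])
  (.br 2 14 (.cyc 2 [0, 1, 10, 14]) (.br 3 14 (.cyc 3 [0, 1, 10, 14])
  (.br 4 14 (.cyc 4 [0, 1, 10, 14]) (.br 7 14 (.cyc 7 [5, 1, 10, 14])
  (.br 8 14 (.cyc 8 [7, 5, 10, 14]) (.br 9 14 (.cyc 9 [5, 1, 10, 14]) (.br 1 14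
  (.br 5 14 (.clq [5, 14, 1, 10]) (.ind [5, 14, 3, 4, 8])) (.ind [1, 14, 3, 4, 7]))))))))) .done))))))) (.ind [1, 10, 3, 4, 8])))) (.ind [8, 9, 1, 3, 4]))

def t43x36 : Tr :=
  (.br 1 7 (.br 6 7 (.cyc 6 [3, 0, 1, 7]) (.br 7 11 (.cyc 7 [1, 0, 4, 11])
  (.br 7 12 (.cyc 7 [1, 0, 3, 12]) (.br 7 13 (.cyc 7 [1, 0, 4, 13])
  (.br 8 9 (.cyc 8 [7, 1, 5, 9]) (.br 8 10 (.cyc 8 [7, 1, 5, 10]) (.br 9 10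
  (.br 1 9 (.cyc 1 [7, 5, 10, 9]) (.br 1 10 (.cyc 1 [7, 5, 9, 10])
  (.br 7 9 (.cyc 7 [1, 5, 10, 9]) (.br 7 10 (.cyc 7 [1, 5, 9, 10]) (.br 1 8
  (.br 6 8 (.cyc 6 [3, 0, 1, 8])
  (.br 8 11 (.cyc 8 [1, 0, 4, 11]) (.ind [8, 11, 0, 5, 6]))) (.ind [1, 8, 3, 4, 9])))))) (.ind [9, 10, 3, 4, 8]))))))))
  (.br 1 8 (.br 1 9 (.cyc 1 [8, 7, 5, 9]) (.br 1 10 (.cyc 1 [8, 7, 5, 10])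
  (.br 6 8 (.cyc 6 [3, 0, 1, 8]) (.br 7 9 (.cyc 7 [8, 1, 5, 9]) (.ind [7, 9, 1, 3, 4])))))
  (.br 1 9 (.br 6 9 (.cyc 6 [3, 0, 1, 9]) (.br 8 9 (.cyc 8 [7, 5, 1, 9])
  (.br 9 11 (.cyc 9 [1, 0, 4, 11]) (.br 9 12 (.cyc 9 [1, 0, 3, 12])
  (.br 9 13 (.cyc 9 [1, 0, 4, 13]) t43x34))))) (.br 7 9 t43x35 (.ind [7, 9, 1, 3, 4])))))

def t43x37 : Tr :=
  (.br 4 8 (.br 1 7 (.cyc 1 [0, 4, 8, 7]) (.br 1 8 (.cyc 1 [0, 2, 4, 8])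
  (.br 6 8 (.cyc 6 [3, 0, 4, 8]) (.br 8 11 (.br 8 12 (.cyc 8 [4, 0, 3, 12])
  (.br 9 11 (.cyc 9 [5, 7, 8, 11]) (.br 10 11 (.cyc 10 [5, 7, 8, 11]) (.ext [11] (.br 11 13
  (.br 0 13 (.cyc 0 [2, 4, 11, 13]) (.br 1 13 (.cyc 1 [0, 4, 11, 13])
  (.br 2 13 (.cyc 2 [0, 4, 11, 13]) (.br 3 13 (.cyc 3 [0, 4, 11, 13])
  (.br 5 13 (.cyc 5 [7, 8, 11, 13]) (.br 7 13 (.cyc 7 [8, 4, 11, 13]) (.br 4 13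
  (.br 6 13 (.cyc 6 [3, 0, 4, 13]) (.br 7 11 (.cyc 7 [8, 4, 13, 11])
  (.br 8 13 (.clq [8, 13, 4, 11]) (.ind [8, 13, 0, 5, 6])))) (.ind [4, 13, 1, 3, 7])))))))) .done))))) (.ind [8, 11, 0, 5, 6]))))) (.ext [4]
  (.br 4 13 (.br 0 13 (.cyc 0 [1, 2, 4, 13]) (.br 1 13 (.cyc 1 [0, 2, 4, 13])
  (.br 2 13 (.cyc 2 [1, 0, 4, 13]) (.br 3 13 (.cyc 3 [0, 2, 4, 13])
  (.br 5 13 (.cyc 5 [1, 0, 4, 13]) (.br 6 13 (.cyc 6 [3, 0, 4, 13]) (.br 11 13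
  (.br 12 13 (.cyc 12 [3, 0, 4, 13]) t43x36) (.ind [11, 13, 0, 5, 6])))))))) .done)))

def t43x38 : Tr :=
  (.br 1 12 (.cyc 1 [0, 3, 2, 12]) (.br 3 12 (.cyc 3 [0, 1, 2, 12])
  (.br 4 12 (.cyc 4 [0, 1, 2, 12]) (.br 5 12 (.cyc 5 [1, 0, 2, 12])
  (.br 6 12 (.cyc 6 [3, 0, 2, 12]) (.br 7 12 (.cyc 7 [5, 1, 2, 12])
  (.br 9 12 (.cyc 9 [5, 1, 2, 12]) (.br 10 12 (.cyc 10 [5, 1, 2, 12])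
  (.br 11 12 (.cyc 11 [4, 0, 2, 12]) (.br 0 12 (.br 1 7 (.br 1 9 (.br 1 10
  (.br 3 8 (.cyc 3 [0, 1, 7, 8]) (.br 4 8 (.cyc 4 [0, 1, 7, 8]) (.br 6 7 (.cyc 6 [3, 0, 1, 7])
  (.br 6 8 (.br 6 9 (.cyc 6 [3, 0, 1, 9]) (.br 6 10 (.cyc 6 [3, 0, 1, 10])
  (.br 7 9 (.cyc 7 [1, 10, 5, 9]) (.ind [7, 9, 2, 4, 6])))) (.ind [6, 8, 2, 4, 5]))))) (.ind [1, 10, 3, 4, 12])) (.ind [1, 9, 3, 4, 12])) (.ind [1, 7, 3, 4, 12])) (.ind [0, 12, 5, 6, 11])))))))))))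

def t43x39 : Tr :=
  (.br 2 4 (.br 3 8 (.br 1 7 (.cyc 1 [0, 3, 8, 7]) (.br 1 8 (.cyc 1 [0, 2, 3, 8])
  (.br 4 8 (.cyc 4 [0, 2, 3, 8]) (.br 8 11 (.cyc 8 [3, 0, 4, 11]) (.br 6 8
  (.br 6 9 (.cyc 6 [8, 7, 5, 9]) (.br 6 10 (.cyc 6 [8, 7, 5, 10]) (.ext [4]
  (.br 4 12 t43x33 .done)))) (.ind [6, 8, 0, 5, 11])))))) (.ext [3] (.br 3 12
  (.br 0 12 (.cyc 0 [1, 2, 3, 12]) (.br 1 12 (.cyc 1 [0, 2, 3, 12])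
  (.br 2 12 (.cyc 2 [1, 0, 3, 12]) (.br 4 12 (.cyc 4 [0, 2, 3, 12])
  (.br 5 12 (.cyc 5 [1, 0, 3, 12]) (.br 11 12 (.cyc 11 [4, 0, 3, 12])
  (.br 6 12 t43x37 (.ind [6, 12, 0, 5, 11])))))))) .done))) (.ext [2] (.br 2 12 t43x38 .done)))

def t43x40 : Tr :=
  (.br 1 13 (.cyc 1 [0, 11, 2, 13]) (.br 3 13 (.cyc 3 [0, 1, 2, 13])
  (.br 4 13 (.cyc 4 [0, 1, 2, 13]) (.br 5 13 (.cyc 5 [1, 0, 2, 13])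
  (.br 6 13 (.cyc 6 [3, 0, 2, 13]) (.br 7 13 (.cyc 7 [5, 1, 2, 13])
  (.br 9 13 (.cyc 9 [5, 1, 2, 13]) (.br 10 13 (.cyc 10 [5, 1, 2, 13])
  (.br 11 13 (.cyc 11 [0, 1, 2, 13]) (.br 12 13 (.cyc 12 [11, 0, 2, 13]) (.br 0 13 (.br 1 7
  (.br 1 9 (.br 1 10 (.br 3 8 (.cyc 3 [0, 1, 7, 8]) (.br 4 8 (.cyc 4 [0, 1, 7, 8])
  (.br 6 7 (.cyc 6 [3, 0, 1, 7]) (.br 6 9 (.cyc 6 [3, 0, 1, 9]) (.br 6 10 (.cyc 6 [3, 0, 1, 10])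
  (.br 7 9 (.cyc 7 [1, 10, 5, 9]) (.ind [7, 9, 3, 11, 13]))))))) (.ind [1, 10, 3, 11, 13])) (.ind [1, 9, 3, 11, 13])) (.ind [1, 7, 3, 11, 13])) (.ind [0, 13, 5, 6, 12]))))))))))))

def t43x41 : Tr :=
  (.br 11 12 (.br 0 12 (.cyc 0 [1, 2, 11, 12]) (.br 1 12 (.cyc 1 [0, 2, 11, 12])
  (.br 2 12 (.cyc 2 [1, 0, 11, 12]) (.br 3 12 (.cyc 3 [0, 2, 11, 12])
  (.br 4 12 (.cyc 4 [0, 2, 11, 12]) (.br 5 12 (.cyc 5 [1, 0, 11, 12])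
  (.br 6 12 (.cyc 6 [3, 0, 11, 12]) (.br 2 4 (.br 3 4 (.cyc 3 [0, 1, 2, 4])
  (.br 4 6 (.cyc 4 [2, 0, 3, 6]) (.br 7 9 (.br 7 10 (.br 8 9 (.cyc 8 [7, 10, 5, 9])
  (.br 8 10 (.cyc 8 [7, 9, 5, 10])
  (.br 9 10 (.clq [9, 10, 5, 7]) (.ind [9, 10, 3, 4, 11])))) (.ind [7, 10, 3, 4, 11])) (.ind [7, 9, 3, 4, 11]))))
  (.br 3 4 (.br 4 6 (.ext [2]
  (.br 2 13 t43x40 .done)) (.ind [4, 6, 2, 5, 12])) (.ind [3, 4, 2, 5, 12])))))))))) .done)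

def t43x42 : Tr :=
  (.br 1 8 (.cyc 1 [0, 4, 3, 8]) (.br 8 11 (.cyc 8 [3, 0, 2, 11])
  (.br 8 12 (.cyc 8 [3, 0, 2, 12]) (.br 6 8 (.br 6 9 (.cyc 6 [8, 7, 5, 9])
  (.br 6 10 (.cyc 6 [8, 7, 5, 10]) (.br 9 10 (.br 4 6 (.cyc 4 [0, 3, 8, 6])
  (.br 4 8 (.cyc 4 [0, 3, 6, 8]) (.br 6 7 (.br 6 13 (.br 7 13 (.cyc 7 [8, 3, 6, 13])
  (.br 8 9 (.cyc 8 [6, 7, 5, 9]) (.br 8 10 (.cyc 8 [6, 7, 5, 10]) (.br 8 13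
  (.br 9 13 (.cyc 9 [5, 7, 6, 13]) (.br 10 13 (.cyc 10 [5, 7, 6, 13]) (.br 12 13 (.br 1 9
  (.br 1 10 (.clq [1, 10, 5, 9]) (.ind [1, 10, 4, 6, 11])) (.ind [1, 9, 4, 6, 11])) (.ind [12, 13, 1, 3, 7])))) (.ind [8, 13, 2, 4, 5]))))) (.ind [6, 13, 2, 4, 5])) (.ind [6, 7, 1, 4, 11])))) (.ind [9, 10, 0, 6, 11])))) (.ind [6, 8, 0, 5, 11])))))

def t43x43 : Tr :=
  (.br 2 13 (.br 6 13 (.cyc 6 [3, 0, 2, 13]) (.br 7 13 (.cyc 7 [5, 1, 2, 13])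
  (.br 9 13 (.cyc 9 [5, 1, 2, 13]) (.br 10 13 (.cyc 10 [5, 1, 2, 13])
  (.br 12 13 (.clq [12, 13, 2, 11]) (.ind [12, 13, 0, 5, 6])))))) (.br 3 4
  (.br 1 4 (.cyc 1 [2, 0, 3, 4]) (.br 3 8 (.br 1 7 (.cyc 1 [0, 3, 8, 7]) t43x42) (.br 8 13
  (.br 9 13 (.cyc 9 [5, 7, 8, 13]) (.br 10 13 (.cyc 10 [5, 7, 8, 13])
  (.br 1 8 (.cyc 1 [2, 11, 13, 8]) (.br 8 12 (.cyc 8 [13, 11, 2, 12]) (.br 9 10 (.br 6 8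
  (.br 6 9 (.cyc 6 [8, 7, 5, 9]) (.br 6 10 (.cyc 6 [8, 7, 5, 10]) (.br 8 9 (.cyc 8 [7, 5, 10, 9])
  (.br 8 10 (.cyc 8 [7, 5, 9, 10]) (.br 1 9
  (.br 1 10 (.clq [1, 10, 5, 9]) (.ind [1, 10, 3, 8, 12])) (.ind [1, 9, 3, 8, 12])))))) (.ind [6, 8, 0, 5, 12])) (.ind [9, 10, 2, 3, 13])))))) (.ind [8, 13, 2, 3, 5])))) (.ind [3, 4, 2, 5, 13])))

def t43x44 : Tr :=
  (.br 1 8 (.cyc 1 [0, 4, 3, 8]) (.br 8 11 (.cyc 8 [3, 0, 2, 11])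
  (.br 8 13 (.cyc 8 [3, 0, 2, 13]) (.br 6 8 (.br 6 9 (.cyc 6 [8, 7, 5, 9])
  (.br 6 10 (.cyc 6 [8, 7, 5, 10]) (.br 9 10 (.br 4 6 (.cyc 4 [0, 3, 8, 6])
  (.br 4 8 (.cyc 4 [0, 3, 6, 8]) (.br 6 7 (.br 6 12 (.br 7 12 (.cyc 7 [8, 3, 6, 12])
  (.br 8 9 (.cyc 8 [6, 7, 5, 9]) (.br 8 10 (.cyc 8 [6, 7, 5, 10]) (.br 8 12
  (.br 9 12 (.cyc 9 [5, 7, 6, 12]) (.br 10 12 (.cyc 10 [5, 7, 6, 12]) (.br 12 13 (.br 1 9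
  (.br 1 10 (.clq [1, 10, 5, 9]) (.ind [1, 10, 4, 6, 11])) (.ind [1, 9, 4, 6, 11])) (.ind [12, 13, 1, 3, 7])))) (.ind [8, 12, 2, 4, 5]))))) (.ind [6, 12, 2, 4, 5])) (.ind [6, 7, 1, 4, 11])))) (.ind [9, 10, 0, 6, 11])))) (.ind [6, 8, 0, 5, 11])))))

def t43x45 : Tr :=
  (.br 0 13 (.br 1 11 (.cyc 1 [0, 13, 2, 11]) (.br 1 13 (.clq [1, 13, 0, 2])
  (.br 11 13 (.cyc 11 [2, 1, 0, 13]) (.br 12 13 (.cyc 12 [11, 2, 0, 13]) (.br 1 7 (.br 1 9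
  (.br 1 10 (.br 3 8 (.cyc 3 [0, 1, 7, 8]) (.br 4 6 (.br 4 8 (.cyc 4 [0, 1, 7, 8])
  (.br 6 7 (.cyc 6 [3, 0, 1, 7]) (.br 6 9 (.cyc 6 [3, 0, 1, 9]) (.br 6 10 (.cyc 6 [3, 0, 1, 10])
  (.br 7 9 (.cyc 7 [1, 10, 5, 9]) (.ind [7, 9, 0, 6, 11])))))) (.ind [4, 6, 1, 11, 13]))) (.ind [1, 10, 3, 11, 13])) (.ind [1, 9, 3, 11, 13])) (.ind [1, 7, 3, 11, 13]))))))
  (.br 11 13 (.br 1 11 (.cyc 1 [0, 2, 13, 11]) (.br 1 13 (.cyc 1 [0, 2, 11, 13]) (.br 3 8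
  (.br 1 7 (.cyc 1 [0, 3, 8, 7]) t43x44) (.br 8 12 (.br 8 13 (.cyc 8 [12, 11, 2, 13])
  (.br 9 12 (.cyc 9 [5, 7, 8, 12]) (.br 10 12 (.cyc 10 [5, 7, 8, 12])
  (.br 1 8 (.cyc 1 [2, 11, 12, 8]) (.br 6 8 (.br 6 9 (.cyc 6 [8, 7, 5, 9])
  (.br 6 10 (.cyc 6 [8, 7, 5, 10]) (.br 9 10 (.br 4 8 (.cyc 4 [0, 3, 6, 8])
  (.br 8 9 (.cyc 8 [7, 5, 10, 9]) (.br 8 10 (.cyc 8 [7, 5, 9, 10]) (.br 1 9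
  (.br 1 10 (.clq [1, 10, 5, 9]) (.ind [1, 10, 3, 8, 13])) (.ind [1, 9, 3, 8, 13]))))) (.ind [9, 10, 0, 6, 11])))) (.ind [6, 8, 0, 5, 13])))))) (.ind [8, 12, 2, 3, 5]))))) (.ind [11, 13, 0, 5, 6])))

def t43x46 : Tr :=
  (.br 2 12 (.br 1 11 (.cyc 1 [0, 2, 12, 11]) (.br 6 12 (.cyc 6 [3, 0, 2, 12])
  (.br 7 12 (.cyc 7 [5, 1, 2, 12]) (.br 9 12 (.cyc 9 [5, 1, 2, 12])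
  (.br 10 12 (.cyc 10 [5, 1, 2, 12]) (.ext [11] (.br 11 13 (.br 0 13 (.cyc 0 [1, 2, 11, 13])
  (.br 1 13 (.cyc 1 [0, 2, 11, 13]) (.br 3 13 (.cyc 3 [0, 2, 11, 13])
  (.br 4 13 (.cyc 4 [0, 2, 11, 13]) (.br 5 13 (.cyc 5 [1, 2, 11, 13]) t43x43))))) .done)))))))
  (.br 3 4 (.br 1 4 (.cyc 1 [2, 0, 3, 4]) (.ext [2] (.br 2 13 (.br 3 13 (.cyc 3 [0, 1, 2, 13])
  (.br 4 13 (.cyc 4 [0, 1, 2, 13]) (.br 5 13 (.cyc 5 [1, 0, 2, 13])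
  (.br 6 13 (.cyc 6 [3, 0, 2, 13]) (.br 7 13 (.cyc 7 [5, 1, 2, 13])
  (.br 9 13 (.cyc 9 [5, 1, 2, 13])
  (.br 10 13 (.cyc 10 [5, 1, 2, 13]) t43x45))))))) .done))) (.ind [3, 4, 2, 5, 12])))

def t43x47 : Tr :=
  (.br 0 11 (.br 1 4 (.cyc 1 [2, 11, 0, 4])
  (.br 1 11 (.clq [1, 11, 0, 2]) (.ext [11] t43x41))) (.ext [11] (.br 11 12
  (.br 0 12 (.cyc 0 [1, 2, 11, 12]) (.br 1 12 (.cyc 1 [0, 2, 11, 12])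
  (.br 3 12 (.cyc 3 [0, 2, 11, 12]) (.br 4 12 (.cyc 4 [0, 2, 11, 12])
  (.br 5 12 (.cyc 5 [1, 2, 11, 12]) (.br 2 4 (.br 1 4 (.clq [1, 4, 0, 2])
  (.br 1 11 (.cyc 1 [0, 4, 2, 11]) (.br 3 4 (.cyc 3 [0, 1, 2, 4]) (.br 4 6 (.cyc 4 [2, 0, 3, 6])
  (.br 7 9 (.br 7 10 (.br 8 9 (.cyc 8 [7, 10, 5, 9]) (.br 8 10 (.cyc 8 [7, 9, 5, 10])
  (.br 9 10 (.clq [9, 10, 5, 7]) (.ind [9, 10, 3, 4, 11])))) (.ind [7, 10, 3, 4, 11])) (.ind [7, 9, 3, 4, 11])))))) t43x46)))))) .done)))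

def t43x48 : Tr :=
  (.br 2 3 (.br 1 4 (.cyc 1 [2, 3, 0, 4]) (.br 3 4 (.cyc 3 [2, 1, 0, 4])
  (.br 4 6 (.cyc 4 [0, 2, 3, 6]) (.ext [4] (.br 4 11 (.br 1 11 (.cyc 1 [2, 0, 4, 11])
  (.br 2 11 (.cyc 2 [1, 0, 4, 11]) (.br 3 11 (.cyc 3 [2, 0, 4, 11])
  (.br 5 11 (.cyc 5 [1, 0, 4, 11]) (.br 6 11 (.cyc 6 [3, 0, 4, 11]) (.br 0 11
  (.br 2 4 (.cyc 2 [1, 0, 11, 4]) (.br 7 11 (.cyc 7 [5, 1, 0, 11])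
  (.br 9 11 (.cyc 9 [5, 1, 0, 11])
  (.br 10 11 (.cyc 10 [5, 1, 0, 11]) (.ext [2] t43x32))))) t43x39)))))) .done))))) (.ext [2]
  (.br 2 11 (.br 3 11 (.cyc 3 [0, 1, 2, 11]) (.br 4 11 (.cyc 4 [0, 1, 2, 11])
  (.br 5 11 (.cyc 5 [1, 0, 2, 11]) (.br 6 11 (.cyc 6 [3, 0, 2, 11])
  (.br 7 11 (.cyc 7 [5, 1, 2, 11]) (.br 9 11 (.cyc 9 [5, 1, 2, 11])
  (.br 10 11 (.cyc 10 [5, 1, 2, 11]) t43x47))))))) .done)))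

def t43x49 : Tr :=
  (.br 2 9 (.cyc 2 [0, 1, 5, 9]) (.br 3 9 (.cyc 3 [0, 1, 5, 9]) (.br 4 9 (.cyc 4 [0, 1, 5, 9])
  (.br 5 8 (.br 3 8 (.cyc 3 [0, 1, 5, 8]) (.br 4 8 (.cyc 4 [0, 1, 5, 8]) (.br 2 3
  (.br 1 4 (.cyc 1 [2, 3, 0, 4]) (.br 3 4 (.cyc 3 [2, 1, 0, 4])
  (.br 4 6 (.cyc 4 [0, 2, 3, 6]) (.ext [3] (.br 3 10 (.br 0 10 (.cyc 0 [1, 2, 3, 10])
  (.br 1 10 (.cyc 1 [0, 2, 3, 10]) t43x26)) .done))))) (.ext [2] t43x31)))) (.ext [5] (.br 5 10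
  (.br 0 10 (.cyc 0 [2, 1, 5, 10]) (.br 2 10 (.cyc 2 [0, 1, 5, 10])
  (.br 3 10 (.cyc 3 [0, 1, 5, 10]) (.br 4 10 (.cyc 4 [0, 1, 5, 10]) t43x48)))) .done))))))

def t43x50 : Tr :=
  (.br 0 6 (.br 2 3 (.cyc 2 [1, 0, 6, 3]) (.br 6 7 (.cyc 6 [0, 1, 5, 7]) (.ext [7] (.br 7 9
  (.br 0 9 (.cyc 0 [1, 5, 7, 9]) (.br 2 9 (.cyc 2 [1, 5, 7, 9]) (.br 7 1
  (.br 2 5 (.cyc 2 [0, 1, 7, 5]) (.br 3 8 (.cyc 3 [0, 1, 7, 8]) t43x8)) (.ext [7] (.br 7 10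
  (.br 0 10 (.cyc 0 [1, 5, 7, 10]) (.br 2 10 (.cyc 2 [1, 5, 7, 10]) t43x17)) .done))))) .done))))
  (.br 5 2 (.br 1 4 (.cyc 1 [5, 2, 0, 4]) (.br 1 7 (.cyc 1 [0, 2, 5, 7])
  (.br 1 8 (.cyc 1 [2, 5, 7, 8]) (.br 2 3 (.cyc 2 [5, 1, 0, 3])
  (.br 2 4 (.cyc 2 [5, 1, 0, 4]) (.ext [1] (.br 1 9 (.br 0 9 (.cyc 0 [2, 5, 1, 9])
  (.br 3 9 (.cyc 3 [0, 2, 1, 9]) (.br 4 9 (.cyc 4 [0, 2, 1, 9]) t43x23))) .done))))))) (.ext [5]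
  (.br 5 9 (.br 0 9 (.cyc 0 [2, 1, 5, 9]) t43x49) .done))))

def t43x51 : Tr :=
  (.br 7 8 (.br 0 8 (.cyc 0 [1, 5, 7, 8]) (.br 2 8 (.cyc 2 [1, 5, 7, 8]) (.br 0 5
  (.br 1 7 (.cyc 1 [2, 0, 5, 7]) (.br 1 8 (.cyc 1 [0, 5, 7, 8]) (.br 2 3 (.cyc 2 [1, 5, 0, 3])
  (.br 2 4 (.cyc 2 [1, 5, 0, 4]) (.br 2 5 (.clq [2, 5, 0, 1]) (.br 3 8 (.cyc 3 [0, 5, 7, 8])
  (.br 4 8 (.cyc 4 [0, 5, 7, 8]) (.br 6 7 (.cyc 6 [3, 0, 5, 7]) (.ext [2] (.br 2 9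
  (.br 0 9 (.cyc 0 [5, 1, 2, 9]) (.br 1 9 (.cyc 1 [5, 0, 2, 9]) (.br 3 9 (.cyc 3 [0, 1, 2, 9])
  (.br 4 9 (.cyc 4 [0, 1, 2, 9]) (.br 5 9 (.cyc 5 [0, 1, 2, 9])
  (.br 6 9 (.cyc 6 [3, 0, 2, 9]) t43x6)))))) .done)))))))))) t43x50))) .done)

def t43 : Tr :=
  (.ext [0] (.br 0 3 (.ext [0] (.br 0 4 (.br 1 3 (.br 2 3 (.clq [2, 3, 0, 1]) t43x4) (.ext [1]
  (.br 1 5 (.br 3 5 (.cyc 3 [0, 2, 1, 5]) (.br 4 5 (.cyc 4 [0, 2, 1, 5]) (.ext [3] (.br 3 6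
  (.br 1 6 (.cyc 1 [2, 0, 3, 6]) (.br 2 6 (.cyc 2 [1, 0, 3, 6])
  (.br 5 6 (.cyc 5 [1, 0, 3, 6]) (.ext [5] (.br 5 7 (.br 0 7 (.cyc 0 [2, 1, 5, 7])
  (.br 2 7 (.cyc 2 [0, 1, 5, 7]) (.br 3 7 (.cyc 3 [0, 1, 5, 7])
  (.br 4 7 (.cyc 4 [0, 1, 5, 7]) (.ext [7] t43x51))))) .done))))) .done)))) .done))) .done)) .done))

theorem c43 : chk 4 3 3 t43 3 0 0 [] 0 = true := by decide +kernel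

def t44x0 : Tr :=
  (.br 7 8 (.cyc 7 [3, 0, 4, 8]) (.br 0 8 (.ext [4] (.br 4 9 (.br 1 9 (.cyc 1 [0, 8, 4, 9])
  (.br 2 9 (.cyc 2 [0, 8, 4, 9]) (.br 3 9 (.cyc 3 [0, 8, 4, 9]) (.br 5 9 (.cyc 5 [1, 0, 4, 9])
  (.br 6 9 (.cyc 6 [2, 0, 4, 9]) (.br 7 9 (.cyc 7 [3, 0, 4, 9]) (.br 8 9 (.br 0 9 (.ext [4]
  (.br 4 10 (.br 0 10 (.cyc 0 [8, 9, 4, 10]) (.br 1 10 (.cyc 1 [0, 8, 4, 10])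
  (.br 2 10 (.cyc 2 [0, 8, 4, 10]) (.br 3 10 (.cyc 3 [0, 8, 4, 10])
  (.br 5 10 (.cyc 5 [1, 0, 4, 10]) (.br 6 10 (.cyc 6 [2, 0, 4, 10])
  (.br 7 10 (.cyc 7 [3, 0, 4, 10]) (.ind [7, 10, 0, 5, 6])))))))) .done)) (.ind [0, 9, 5, 6, 7])) (.ind [8, 9, 1, 6, 7])))))))) .done)) (.ind [0, 8, 5, 6, 7])))

def t44x1 : Tr :=
  (.br 2 6 (.br 0 6 (.cyc 0 [1, 3, 2, 6]) (.br 1 6 (.cyc 1 [0, 3, 2, 6])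
  (.br 3 6 (.cyc 3 [0, 1, 2, 6]) (.br 4 6 (.cyc 4 [0, 1, 2, 6])
  (.br 5 6 (.cyc 5 [1, 0, 2, 6]) (.ext [3] (.br 3 7 (.br 0 7 (.cyc 0 [1, 2, 3, 7])
  (.br 1 7 (.cyc 1 [0, 2, 3, 7]) (.br 2 7 (.cyc 2 [0, 1, 3, 7]) (.br 4 7 (.cyc 4 [0, 1, 3, 7])
  (.br 5 7 (.cyc 5 [1, 0, 3, 7]) (.br 6 7 (.cyc 6 [2, 0, 3, 7]) (.ext [4] (.br 4 8
  (.br 1 8 (.cyc 1 [2, 0, 4, 8]) (.br 2 8 (.cyc 2 [1, 0, 4, 8]) (.br 3 8 (.cyc 3 [1, 0, 4, 8])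
  (.br 5 8 (.cyc 5 [1, 0, 4, 8])
  (.br 6 8 (.cyc 6 [2, 0, 4, 8]) t44x0))))) .done)))))))) .done))))))) .done)

def t44 : Tr :=
  (.ext [0] (.br 0 4 (.br 1 4 (.cyc 1 [2, 3, 0, 4]) (.br 2 4 (.cyc 2 [1, 3, 0, 4])
  (.br 3 4 (.cyc 3 [1, 2, 0, 4]) (.ext [1] (.br 1 5 (.br 0 5 (.cyc 0 [2, 3, 1, 5])
  (.br 2 5 (.cyc 2 [0, 3, 1, 5]) (.br 3 5 (.cyc 3 [0, 2, 1, 5])
  (.br 4 5 (.cyc 4 [0, 2, 1, 5]) (.ext [2] t44x1))))) .done))))) .done))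

theorem c44 : chk 4 4 4 t44 4 0 0 [] 0 = true := by decide +kernel

def t52x0 : Tr :=
  (.br 6 4 (.br 3 7 (.cyc 3 [0, 4, 6, 1, 7]) (.br 3 8 (.cyc 3 [0, 4, 6, 1, 8])
  (.br 3 9 (.cyc 3 [0, 4, 6, 1, 9]) (.ind [3, 9, 2, 6, 7, 8])))) (.br 6 5
  (.br 3 7 (.cyc 3 [0, 5, 6, 1, 7]) (.br 3 8 (.cyc 3 [0, 5, 6, 1, 8])
  (.br 3 9 (.cyc 3 [0, 5, 6, 1, 9]) (.ind [3, 9, 2, 6, 7, 8])))) (.br 6 10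
  (.br 7 11 (.cyc 7 [1, 6, 10, 2, 11]) (.br 7 12 (.cyc 7 [1, 6, 10, 2, 12])
  (.br 7 13 (.cyc 7 [1, 6, 10, 2, 13]) (.br 8 11 (.cyc 8 [1, 6, 10, 2, 11])
  (.br 8 12 (.cyc 8 [1, 6, 10, 2, 12])
  (.br 8 13 (.cyc 8 [1, 6, 10, 2, 13]) (.ind [8, 13, 0, 7, 11, 12]))))))) (.ext [6] (.br 6 14
  (.br 1 14 (.clq [1, 14, 6]) (.br 10 14 (.cyc 10 [2, 0, 1, 6, 14])
  (.br 11 14 (.cyc 11 [2, 0, 1, 6, 14]) (.br 12 14 (.cyc 12 [2, 0, 1, 6, 14])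
  (.br 13 14 (.cyc 13 [2, 0, 1, 6, 14]) (.ind [13, 14, 1, 10, 11, 12])))))) .done)))))

def t52x1 : Tr :=
  (.br 2 9 (.br 3 6 (.cyc 3 [0, 2, 9, 1, 6]) (.br 3 7 (.cyc 3 [0, 2, 9, 1, 7])
  (.br 3 8 (.cyc 3 [0, 2, 9, 1, 8]) (.br 3 10 (.cyc 3 [0, 1, 9, 2, 10])
  (.br 3 11 (.cyc 3 [0, 1, 9, 2, 11]) (.br 3 12 (.cyc 3 [0, 1, 9, 2, 12])
  (.br 4 6 (.cyc 4 [0, 2, 9, 1, 6]) (.br 4 7 (.cyc 4 [0, 2, 9, 1, 7])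
  (.br 4 8 (.cyc 4 [0, 2, 9, 1, 8]) (.ind [4, 8, 2, 3, 6, 7])))))))))) (.ext [2] (.br 2 13
  (.br 0 13 (.clq [0, 13, 2]) (.br 10 13 (.clq [10, 13, 2]) (.br 11 13 (.clq [11, 13, 2])
  (.br 12 13 (.clq [12, 13, 2]) (.br 1 13 (.br 3 6 (.cyc 3 [0, 2, 13, 1, 6])
  (.br 3 7 (.cyc 3 [0, 2, 13, 1, 7]) (.br 3 8 (.cyc 3 [0, 2, 13, 1, 8])
  (.br 3 9 (.cyc 3 [0, 2, 13, 1, 9]) (.ind [3, 9, 2, 6, 7, 8]))))) (.br 6 3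
  (.br 3 10 (.cyc 3 [6, 1, 0, 2, 10]) (.br 3 11 (.cyc 3 [6, 1, 0, 2, 11])
  (.br 3 12 (.cyc 3 [6, 1, 0, 2, 12])
  (.br 3 13 (.cyc 3 [6, 1, 0, 2, 13]) (.ind [3, 13, 1, 10, 11, 12]))))) t52x0)))))) .done)))

def t52x2 : Tr :=
  (.br 2 8 (.br 3 6 (.cyc 3 [0, 2, 8, 1, 6]) (.br 3 7 (.cyc 3 [0, 2, 8, 1, 7])
  (.br 3 9 (.cyc 3 [0, 2, 8, 1, 9]) (.br 3 10 (.cyc 3 [0, 1, 8, 2, 10])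
  (.br 3 11 (.cyc 3 [0, 1, 8, 2, 11]) (.br 4 6 (.cyc 4 [0, 2, 8, 1, 6])
  (.br 4 7 (.cyc 4 [0, 2, 8, 1, 7]) (.br 4 9 (.cyc 4 [0, 2, 8, 1, 9])
  (.br 4 10 (.cyc 4 [0, 1, 8, 2, 10]) (.br 4 11 (.cyc 4 [0, 1, 8, 2, 11])
  (.br 5 6 (.cyc 5 [0, 2, 8, 1, 6])
  (.br 5 7 (.cyc 5 [0, 2, 8, 1, 7]) (.ind [5, 7, 2, 3, 4, 6]))))))))))))) (.ext [2] (.br 2 12
  (.br 0 12 (.clq [0, 12, 2]) (.br 10 12 (.clq [10, 12, 2]) (.br 11 12 (.clq [11, 12, 2])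
  (.br 1 12 (.br 3 6 (.cyc 3 [0, 2, 12, 1, 6]) (.br 3 7 (.cyc 3 [0, 2, 12, 1, 7])
  (.br 3 8 (.cyc 3 [0, 2, 12, 1, 8]) (.br 3 9 (.cyc 3 [0, 2, 12, 1, 9])
  (.br 3 10 (.cyc 3 [0, 1, 12, 2, 10]) (.br 3 11 (.cyc 3 [0, 1, 12, 2, 11])
  (.br 4 6 (.cyc 4 [0, 2, 12, 1, 6]) (.br 4 7 (.cyc 4 [0, 2, 12, 1, 7])
  (.br 4 8 (.cyc 4 [0, 2, 12, 1, 8]) (.ind [4, 8, 2, 3, 6, 7])))))))))) t52x1)))) .done)))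

def t52x3 : Tr :=
  (.br 2 7 (.br 3 6 (.cyc 3 [0, 2, 7, 1, 6]) (.br 3 8 (.cyc 3 [0, 2, 7, 1, 8])
  (.br 3 9 (.cyc 3 [0, 2, 7, 1, 9]) (.br 3 10 (.cyc 3 [0, 1, 7, 2, 10])
  (.br 4 6 (.cyc 4 [0, 2, 7, 1, 6]) (.br 4 8 (.cyc 4 [0, 2, 7, 1, 8])
  (.br 4 9 (.cyc 4 [0, 2, 7, 1, 9]) (.br 4 10 (.cyc 4 [0, 1, 7, 2, 10])
  (.br 5 6 (.cyc 5 [0, 2, 7, 1, 6]) (.br 5 8 (.cyc 5 [0, 2, 7, 1, 8])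
  (.br 5 9 (.cyc 5 [0, 2, 7, 1, 9]) (.ind [5, 9, 3, 4, 6, 8])))))))))))) (.ext [2] (.br 2 11
  (.br 0 11 (.clq [0, 11, 2]) (.br 10 11 (.clq [10, 11, 2]) (.br 1 11
  (.br 3 6 (.cyc 3 [0, 2, 11, 1, 6]) (.br 3 7 (.cyc 3 [0, 2, 11, 1, 7])
  (.br 3 8 (.cyc 3 [0, 2, 11, 1, 8]) (.br 3 9 (.cyc 3 [0, 2, 11, 1, 9])
  (.br 3 10 (.cyc 3 [0, 1, 11, 2, 10]) (.br 4 6 (.cyc 4 [0, 2, 11, 1, 6])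
  (.br 4 7 (.cyc 4 [0, 2, 11, 1, 7]) (.br 4 8 (.cyc 4 [0, 2, 11, 1, 8])
  (.br 4 9 (.cyc 4 [0, 2, 11, 1, 9]) (.ind [4, 9, 3, 6, 7, 8])))))))))) t52x2))) .done)))

def t52x4 : Tr :=
  (.br 2 6 (.br 3 7 (.cyc 3 [0, 2, 6, 1, 7]) (.br 3 8 (.cyc 3 [0, 2, 6, 1, 8])
  (.br 3 9 (.cyc 3 [0, 2, 6, 1, 9]) (.br 4 7 (.cyc 4 [0, 2, 6, 1, 7])
  (.br 4 8 (.cyc 4 [0, 2, 6, 1, 8]) (.br 4 9 (.cyc 4 [0, 2, 6, 1, 9])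
  (.br 5 7 (.cyc 5 [0, 2, 6, 1, 7]) (.br 5 8 (.cyc 5 [0, 2, 6, 1, 8])
  (.br 5 9 (.cyc 5 [0, 2, 6, 1, 9]) (.ind [5, 9, 3, 4, 7, 8])))))))))) (.ext [2] (.br 2 10
  (.br 0 10 (.clq [0, 10, 2]) (.br 1 10 (.br 3 6 (.cyc 3 [0, 2, 10, 1, 6])
  (.br 3 7 (.cyc 3 [0, 2, 10, 1, 7]) (.br 3 8 (.cyc 3 [0, 2, 10, 1, 8])
  (.br 3 9 (.cyc 3 [0, 2, 10, 1, 9]) (.br 4 6 (.cyc 4 [0, 2, 10, 1, 6])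
  (.br 4 7 (.cyc 4 [0, 2, 10, 1, 7]) (.br 4 8 (.cyc 4 [0, 2, 10, 1, 8])
  (.br 4 9 (.cyc 4 [0, 2, 10, 1, 9]) (.ind [4, 9, 3, 6, 7, 8]))))))))) t52x3)) .done)))

def t52x5 : Tr :=
  (.br 1 5 (.clq [1, 5, 0]) (.br 2 5 (.clq [2, 5, 0]) (.br 3 5 (.clq [3, 5, 0])
  (.br 4 5 (.clq [4, 5, 0]) (.ext [1] (.br 1 6 (.br 0 6 (.clq [0, 6, 1]) (.ext [1] (.br 1 7
  (.br 0 7 (.clq [0, 7, 1]) (.br 6 7 (.clq [6, 7, 1]) (.ext [1] (.br 1 8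
  (.br 0 8 (.clq [0, 8, 1]) (.br 6 8 (.clq [6, 8, 1]) (.br 7 8 (.clq [7, 8, 1]) (.ext [1]
  (.br 1 9 (.br 0 9 (.clq [0, 9, 1]) (.br 6 9 (.clq [6, 9, 1]) (.br 7 9 (.clq [7, 9, 1])
  (.br 8 9 (.clq [8, 9, 1]) t52x4)))) .done))))) .done)))) .done))) .done))))))

def t52 : Tr :=
  (.ext [0] (.br 0 2 (.br 1 2 (.clq [1, 2, 0]) (.ext [0] (.br 0 3 (.br 1 3 (.clq [1, 3, 0])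
  (.br 2 3 (.clq [2, 3, 0]) (.ext [0] (.br 0 4 (.br 1 4 (.clq [1, 4, 0])
  (.br 2 4 (.clq [2, 4, 0]) (.br 3 4 (.clq [3, 4, 0]) (.ext [0]
  (.br 0 5 t52x5 .done))))) .done)))) .done))) .done))

theorem c52 : chk 5 2 2 t52 2 0 0 [] 0 = true := by decide +kernel

end Vale.Agent.P048.TinyC
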